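import Vale.Agent.P022S.Geo.Ag0
import Vale.Agent.P022S.Defs

/-!
# P022S: the relations of the pseudo objects hold in the universal ring
-/

set_option linter.all false

noncomputable section

namespace Vale.Agent.P022S.Geo.Ag

open NumberField IsLocalRing MvPowerSeries
open Vale.Agent.P022 Vale.Agent.P022S.R Vale.Agent.P022S.Loc
open Vale.Agent.P027M.S (Inert mx)
open Vale.Agent.P022D.Sel (M2)
open Vale.Agent.P022E.Loc (Pl)
open Vale.Agent.P022G.Pres (Dt Jac)
open Vale.Agent.P022S.Koch (Lm)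

variable {O F : Type} [CommRing O] [Field F] {S : Dat O F} {L : Pl O}

/-- the pseudo object of an object -/
def po [CharP F 2] (h1 : ∀ g, S.rb g = 1) {B : Type} [CommRing B] (Y : Obj S B) : PO S B where
  ι := Y.ι
  π := Y.π
  t g := (Y.ρ g).trace
  d := Matrix.GeneralLinearGroup.det.comp Y.ρ.toHomUnits
  fin := Y.fin
  loc := Y.loc
  alg := Y.alg
  tf := _root_.P022G.Kd.tf_rep Y.ρ
  rt g := by
    rw [AddMonoidHom.map_trace, Y.res, mx, h1, Matrix.trace_fin_two]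
    exact CharTwo.add_self_eq_zero (1 : F)
  rd g := by
    show Y.π (Y.ρ g).det = 1
    rw [RingHom.map_det, RingHom.mapMatrix_apply, Y.res, mx, h1, Units.val_one, Matrix.det_one]
  opn := ⟨Y.ρ.toHomUnits.ker, by
      rw [show (Y.ρ.toHomUnits.ker : Set GQ) = {g | Y.ρ g = 1} from
        Set.ext fun _ => Units.ext_iff]
      exact Y.opn, fun u hu => ⟨fun g => by
        rw [map_mul, show Y.ρ u = 1 from Units.ext_iff.1 hu, mul_one], by
        rw [MonoidHom.comp_apply, show Y.ρ.toHomUnits u = 1 from hu, map_one]⟩⟩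

theorem po_cl [CharP F 2] (h1 : ∀ g, S.rb g = 1) {B : Type} [CommRing B] {Y : Obj S B}
    {Q : Finset ℕ} (h : Ty (ClG L S) Q B Y) : (po h1 Y).Cl L Q :=
  ⟨h.1.d2, h.1.dc, h.1.dl, fun l a1 a2 a3 P a4 a5 s a6 =>
    have e := h.2 l a1 a2 a3 P a4 a5 s a6
    ⟨fun g => by
      show (Y.ρ (g * s)).trace = (Y.ρ g).trace
      rw [map_mul, e, mul_one], Units.ext (by
      show (Y.ρ s).det = 1
      rw [e, Matrix.det_one])⟩⟩

theorem wm_r {B : Type} [CommRing B] (ρ : GQ →* M2 B) {n : ℕ} (γ : Fin n → GQ)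
    (s : Finset (Fin n)) : wm (fun i => ρ (γ i)) s = ρ (P022G.Word.wd γ s) := by
  rw [wm, P022G.Word.wd, map_list_prod, List.map_map]
  rfl

/-- **the relations of the pseudo objects** -/
theorem ag [IsLocalRing O] [IsNoetherianRing O] [IsAdicComplete (maximalIdeal O) O] [Finite F]
    [CharP F 2] {X : Finset ℕ} {as : ℕ} (hC : Cx S L X as) {κ : Type} {gk : κ → GQ} {n : ℕ}
    (G : Gs S L gk n) {ι : Type} [Fintype ι] {D : Dt O F ι} {hS : D.Ok} (m : Mt S L D)
    {e : ι → Fin n} {R : FreeGroup (Fin n) →* M2 (P022G.Pres.PP O ι)}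
    {φ : MvPowerSeries (Finset (Fin n) ⊕ Fin n) O →+* P022G.Pres.PP O ι}
    (H : Ph hS G.γ L.r e R φ) : G.aP ≤ (Jac D).comap φ := fun f hf =>
  sym m hC.W0 hC.ok.odd H fun B _ Y ψ h c0 c1 c2 =>
    hf B _ _ ψ ⟨po hC.rb1 Y, po_cl hC.rb1 h, rfl, rfl⟩ ⟨c0, fun s => by
      rcases s with s | i
      · rw [c1, ← wm_r L.r]; rfl
      · exact c2 i⟩

end Vale.Agent.P022S.Geo.Ag
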