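import Vale.Agent.P022S.Geo.Phi
import Vale.Agent.P022S.Koch.Main
import Vale.Agent.P022G.Curve

/-!
# P022S: the special fibre of type `J` of the ring of traces
-/

set_option linter.all false

noncomputable section

namespace Vale.Agent.P022S.Geo

open NumberField IsLocalRing MvPowerSeries
open Vale.Agent.P022
open Vale.Agent.P027M.S (Inert mx)
open Vale.Agent.P022D.Sel (M2)
open Vale.Agent.P022D.CA Vale.Agent.P022G Vale.Agent.P022G.Trc Vale.Agent.P022G.Chain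
open Vale.Agent.P022G.Pres (PP Ix Dt Jac Un Adm pm pm_apply pm_one)
open Vale.Agent.P022S.Koch

variable {O F ι : Type} [CommRing O] [IsDomain O] [IsDiscreteValuationRing O] [Field F]
  [IsAdicComplete (maximalIdeal O) O] [Finite F] [CharP F 2] [Fintype ι] {S : Dt O F ι}

/-- the data of the minimal presentation -/
structure St [DecidableEq ι] (hS : S.Ok) (C' : Finset ℕ) (P : ℕ → Ideal (𝓞 Qb)) (τ f : ℕ → GQ)
    (i2 ic : ι) (iτ : C' → ι) {n : ℕ} (γ : Fin n → GQ) (r : GQ →* M2 O) (e : ι → Fin n)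
    (R : FreeGroup (Fin n) →* M2 (PP O ι))
    (φ : MvPowerSeries (Finset (Fin n) ⊕ Fin n) O →+* PP O ι) : Prop where
  h1 : ∀ g, S.rb g = 1
  hc : ∀ i, S.c0 i = 1
  db : ∃ χ, Db S.T S.gam χ
  pc : Pc S C' P τ f ic iτ
  inj : Function.Injective (Sum.elim ![i2, ic] iτ)
  hδ : ∀ g, S.δ g = (r g).det
  hγ : ∀ i, γ (e i) = S.gam i
  ph : Ph hS γ r e R φ

variable [DecidableEq ι] {C' : Finset ℕ}

/-- the entries of the generators which are killed -/
def DJ (iτ : C' → ι) (J : Finset C') : Finset (Ix ι) := (Jᶜ.image iτ) ×ˢ Finset.univ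

/-- the ideal of the type `J`; `u` are the traces -/
def IJ (ϖ : O) (iτ : C' → ι) {n : ℕ} (e : ι → Fin n)
    (φ : MvPowerSeries (Finset (Fin n) ⊕ Fin n) O →+* PP O ι) (J : Finset C')
    (uc : MvPowerSeries (Finset (Fin n) ⊕ Fin n) O)
    (u1 u2 u3 : C' → MvPowerSeries (Finset (Fin n) ⊕ Fin n) O) :
    Ideal (MvPowerSeries (Finset (Fin n) ⊕ Fin n) O) :=
  (Qv ϖ (DJ iτ J)).comap φ ⊔
    (Ideal.span (Set.range fun i : ((Jᶜ.image iτ)ᶜ : Finset ι) => X (Sum.inr (e i))) ⊔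
      Ideal.span {uc} ⊔ Ideal.span {u | ∃ l, l ∈ J ∧ (u = u1 l ∨ u = u2 l ∨ u = u3 l)})

variable {hS : S.Ok} {P : ℕ → Ideal (𝓞 Qb)} {τ f : ℕ → GQ} {i2 ic : ι} {iτ : C' → ι} {n : ℕ}
  {γ : Fin n → GQ} {r : GQ →* M2 O} {e : ι → Fin n} {R : FreeGroup (Fin n) →* M2 (PP O ι)}
  {φ : MvPowerSeries (Finset (Fin n) ⊕ Fin n) O →+* PP O ι}
  (H : St hS C' P τ f i2 ic iτ γ r e R φ) {ϖ : O} (hϖ : Irreducible ϖ)
  {J : Finset C'} {uc : MvPowerSeries (Finset (Fin n) ⊕ Fin n) O}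
  {u1 u2 u3 : C' → MvPowerSeries (Finset (Fin n) ⊕ Fin n) O} {Φ : C' → M2 (PP O ι)}

include H in
theorem St.back {u : MvPowerSeries (Finset (Fin n) ⊕ Fin n) O} {M : M2 (PP O ι)} (hM : M ∈ Wd hS)
    (h : φ u = M.trace) : u ∈ maximalIdeal _ := by
  by_contra k
  refine (hS.max.1 ?_ : φ u ∈ _) ((notMem_maximalIdeal.1 k).map φ)
  rw [h, AddMonoidHom.map_trace, wd_res hS H.h1 hM, Matrix.trace_fin_two]
  exact CharTwo.add_self_eq_zero (1 : F)

include H in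
theorem St.Zeq : S.Z = Z1 O := funext fun i => by rw [Dt.Z, H.hc]; rfl

include H in
theorem St.dt (i : ι) : φ (X (Sum.inr (e i))) = Pres.Cn.dt S i := by
  rw [H.ph.d, H.ph.z, H.hγ, ← H.hδ]; rfl

include H hϖ in
theorem St.del (g : GQ) : ϖ ∣ S.δ g - 1 := by
  rw [← Ideal.mem_span_singleton, ← hϖ.maximalIdeal_eq, ← hS.ker, map_sub, map_one, hS.det,
    (hu1 H.h1 g).2, sub_self]

include H in
theorem St.kill {I : Ideal (PP O ι)} {i : ι} (h : ∀ a b, X (i, a, b) ∈ I) :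
    (S.Z i).map (Ideal.Quotient.mk I) = 1 := Matrix.ext fun a b => by
  show Ideal.Quotient.mk I (C (S.c0 i a b) + X (i, a, b)) = _
  rw [map_add, Ideal.Quotient.eq_zero_iff_mem.2 (h a b), add_zero, H.hc, Matrix.one_apply,
    Matrix.one_apply, apply_ite C, apply_ite (Ideal.Quotient.mk I), map_one, map_zero, map_one,
    map_zero]

omit [IsDomain O] [IsDiscreteValuationRing O] [IsAdicComplete (maximalIdeal O) O] in
theorem X_mem {l : C'} (hl : l ∉ J) (a b : Fin 2) : X (iτ l, a, b) ∈ Qv ϖ (DJ iτ J) :=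
  Ideal.mem_sup_right (Ideal.subset_span ⟨⟨(iτ l, a, b), Finset.mem_product.2
    ⟨Finset.mem_image_of_mem _ (Finset.mem_compl.2 hl), Finset.mem_univ _⟩⟩, rfl⟩)

include H hϖ in
theorem St.dt_kill {I : Ideal (PP O ι)} (hπ : C ϖ ∈ I) {i : ι} (h : ∀ a b, X (i, a, b) ∈ I) :
    Pres.Cn.dt S i ∈ I := by
  obtain ⟨c, hc⟩ := H.del hϖ (S.gam i)
  rw [Pres.Cn.dt, ← Ideal.Quotient.eq, RingHom.map_det, RingHom.mapMatrix_apply, H.kill h,
    Matrix.det_one, eq_add_of_sub_eq hc, map_add, map_add, map_mul, map_mul,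
    Ideal.Quotient.eq_zero_iff_mem.2 hπ, zero_mul, zero_add, map_one, map_one]

variable (hΦ : ∀ l : C', Lm hS (f l) (Φ l)) (hc : φ uc = (S.Z ic).trace)
  (h1 : ∀ l, φ (u1 l) = (S.Z (iτ l)).trace) (h2 : ∀ l, φ (u2 l) = (Φ l).trace)
  (h3 : ∀ l, φ (u3 l) = (S.Z (iτ l) * Φ l).trace)

include H hϖ hΦ hc h1 h2 h3 in
theorem St.cc : CC (IJ ϖ iτ e φ J uc u1 u2 u3) 1 ∧ IJ ϖ iτ e φ J uc u1 u2 u3 ≠ ⊤ := by
  obtain ⟨gs, k1, k2⟩ := ((Tr.ln_range fun i : ((Jᶜ.image iτ)ᶜ : Finset ι) =>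
    (X (Sum.inr (e i)) : MvPowerSeries (Finset (Fin n) ⊕ Fin n) O)).sup (Tr.ln_one uc)).sup
    (Tr.ln_three (fun l => l ∈ J) u1 u2 u3)
  have hm : Ideal.ofList gs ≤ maximalIdeal _ := by
    rw [k2]
    refine sup_le (sup_le (Ideal.span_le.2 ?_) ((Ideal.span_singleton_le_iff_mem _).2
      (H.back (lm_gen hS ic).wd hc))) (Ideal.span_le.2 ?_)
    · rintro _ ⟨i, rfl⟩
      exact (Cpl.mem_max_iff _).2 (by simp)
    · rintro _ ⟨l, -, rfl | rfl | rfl⟩
      · exact H.back (lm_gen hS _).wd (h1 l)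
      · exact H.back (hΦ l).wd (h2 l)
      · exact H.back (mul_mem (lm_gen hS _).wd (hΦ l).wd) (h3 l)
  have it : Function.Injective iτ := fun a b h => Sum.inr_injective (H.inj (a₁ := .inr a) h)
  have n1 : ∀ a : Fin 2, ![i2, ic] a ∉ Jᶜ.image iτ := fun a h => by
    obtain ⟨l, -, hl⟩ := Finset.mem_image.1 h
    exact Sum.inr_ne_inl (H.inj (a₁ := .inr l) (a₂ := .inl a) hl)
  have cd := Fintype.card_le_of_injective _ H.inj
  rw [Fintype.card_sum, Fintype.card_fin] at cd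
  have c1 : (Jᶜ.image iτ).card + J.card = Fintype.card C' := by
    rw [Finset.card_image_of_injective _ it, Finset.card_compl_add_card]
  have c2 := Finset.card_compl_add_card (Jᶜ.image iτ)
  rw [IJ, ← k2]
  refine ⟨Geo.cc S.red hS.surj hS.ker hϖ φ H.ph.c _ (i := i2) (k := ic)
    (fun h => zero_ne_one (Sum.inl_injective (H.inj (a₁ := .inl 0) (a₂ := .inl 1) h)))
    (fun h => n1 0 (Finset.mem_product.1 h).1) (fun h => n1 1 (Finset.mem_product.1 h).1)
    (fun i => by rw [← H.Zeq, ← H.ph.z]; exact (H.ph.mem _).2)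
    (fun l => by rw [← H.Zeq]; exact H.ph.list l) gs (fun g hg => hm (Tr.mem_ofList hg)) ?_,
    ne_top_of_le_ne_top (maximalIdeal.isMaximal _).ne_top (sup_le (le_maximalIdeal
      (Ideal.comap_ne_top φ (Qv_prime S.red hS.surj hS.ker hϖ _).ne_top)) hm)⟩
  have c3 : (DJ iτ J).card = (Jᶜ.image iτ).card * 4 := by
    unfold DJ; rw [Finset.card_product]; rfl
  have c4 : Fintype.card {l : C' // l ∈ J} = J.card := Fintype.card_coe J
  have c5 := Fintype.card_coe (Jᶜ.image iτ)ᶜ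
  unfold DJ at c3
  simp only [k1, DJ, c3, c4, c5]
  omega

include H hϖ hΦ hc h1 h2 h3 in
/-- the curves of type `J` come from points of the universal ring -/
theorem St.dn {p : Ideal (MvPowerSeries (Finset (Fin n) ⊕ Fin n) O)} (hp : Cv p)
    (hI : IJ ϖ iτ e φ J uc u1 u2 u3 ≤ p) : (Jac S).comap φ ≤ p := by
  haveI : Finite (ResidueField O) := by
    have : RingHom.ker S.red = maximalIdeal O := Ideal.ext fun c => hS.ker c
    show Finite (O ⧸ maximalIdeal O)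
    rw [← this]
    exact Finite.of_injective _ S.red.kerLift_injective
  haveI := Cpl.isAdicCompleteV (σ := Finset (Fin n) ⊕ Fin n) (V := O) inferInstance
  haveI := Cpl.finite_residue (σ := Finset (Fin n) ⊕ Fin n) (V := O)
  have hq : (Qv ϖ (DJ iτ J)).comap φ ≤ p := le_sup_left.trans hI
  have hπ' : (C ϖ : PP O ι) ∈ Qv ϖ (DJ iτ J) :=
    Ideal.mem_sup_left (Ideal.mem_span_singleton_self _)
  have hπ : ∀ c ∈ maximalIdeal O, C c ∈ p := fun c h => by
    rw [hϖ.maximalIdeal_eq, Ideal.mem_span_singleton] at h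
    obtain ⟨d, rfl⟩ := h
    rw [map_mul]
    exact p.mul_mem_right _ (hq (by rw [Ideal.mem_comap, H.ph.c]; exact hπ'))
  have hd : ∀ i, X (Sum.inr (e i)) ∈ p := fun i => by
    by_cases h : i ∈ Jᶜ.image iτ
    · obtain ⟨l, hl, rfl⟩ := Finset.mem_image.1 h
      exact hq (by
        rw [Ideal.mem_comap, H.dt]; exact H.dt_kill hϖ hπ' (X_mem (Finset.mem_compl.1 hl)))
    · exact hI (Ideal.mem_sup_right (Ideal.mem_sup_left (Ideal.mem_sup_left
        (Ideal.subset_span ⟨⟨i, Finset.mem_compl.2 h⟩, rfl⟩))))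
  obtain ⟨V, _, _, _, _, θ, rfl, k2, _, _⟩ := Curve.curveP p hp.1 (by
    rw [← map_ofNat (C : O →+* _) 2]
    exact hπ _ ((hS.ker 2).1 (by rw [map_ofNat]; exact CharTwo.two_eq_zero))) hp.2
  obtain ⟨V', _, _, g, θ', g1, g2, g3⟩ := lift_pt hS H.h1 H.hc H.ph.c H.ph.loc H.ph.var
    (fun w => by rw [H.ph.wz]; exact (H.ph.mem _).1) (Qv_le hϖ _) θ (fun u hu => (k2 u).2 hu) hq
    fun i => ⟨_, (H.ph.ds (e i)).trans (by rw [H.ph.z]), by
      obtain ⟨c, hc⟩ := H.del hϖ (S.gam i)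
      rw [map_add, RingHom.mem_ker.1 (hd i), add_zero, H.hγ, ← H.hδ, eq_add_of_sub_eq hc, map_add,
        map_add, map_one, map_one, RingHom.mem_ker.1 (hπ _ (by
          rw [hϖ.maximalIdeal_eq]; exact Ideal.mem_span_singleton.2 ⟨c, rfl⟩)), zero_add]⟩
  have key : ∀ u, φ u ∈ RingHom.ker θ' ↔ u ∈ RingHom.ker θ := fun u => by
    rw [RingHom.mem_ker, RingHom.mem_ker, ← RingHom.comp_apply, g2, RingHom.comp_apply,
      map_eq_zero_iff g g1]
  obtain ⟨χ, hχ⟩ := H.db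
  have hJ := koch2 hS H.h1 hχ H.pc hΦ J (Lst := RingHom.ker θ')
    (le_maximalIdeal (RingHom.ker_ne_top θ')) (fun i => by rw [← H.dt, key]; exact hd i)
    (by rw [← hc, key]; exact hI (Ideal.mem_sup_right (Ideal.mem_sup_left (Ideal.mem_sup_right
      (Ideal.mem_span_singleton_self _)))))
    (fun c h => by rw [← H.ph.c, key]; exact hπ c h) (fun l hl => by
      rw [← h1, ← h2, ← h3, key, key, key]
      exact ⟨hI (Ideal.mem_sup_right (Ideal.mem_sup_right (Ideal.subset_span ⟨l, hl, .inl rfl⟩))),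
        hI (Ideal.mem_sup_right (Ideal.mem_sup_right (Ideal.subset_span ⟨l, hl, .inr (.inl rfl)⟩))),
        hI (Ideal.mem_sup_right (Ideal.mem_sup_right
          (Ideal.subset_span ⟨l, hl, .inr (.inr rfl)⟩)))⟩) fun l hl => by
      have k := g3 (iτ l) (X_mem hl)
      simp [Dt.Z, H.hc, RingHom.mem_ker, k]
  exact fun u hu => (key u).1 (hJ hu)

include H hϖ in
/-- the curves which come from representations lie over the free locus -/
theorem St.up {V : Type} [CommRing V] [IsLocalRing V] [IsNoetherianRing V]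
    [IsAdicComplete (maximalIdeal V) V] [Finite (ResidueField V)] (j : O →+* V) (ρ : GQ →* M2 V)
    (hj : j ϖ = 0) (hρ : ∀ g a b, (ρ g - 1 : M2 V) a b ∈ maximalIdeal V)
    (hdet : ∀ g, (ρ g).det = 1)
    (hop : ∀ N : ℕ, IsOpen {g | (ρ g).map (Ideal.Quotient.mk (maximalIdeal V ^ N)) = 1})
    (hun : Un S.T ρ) (θ : MvPowerSeries (Finset (Fin n) ⊕ Fin n) O →+* V)
    (c : ∀ o, θ (C o) = j o)
    (t : ∀ s, θ (X (Sum.inl s)) = (ρ (Word.wd γ s)).trace - j (r (Word.wd γ s)).trace)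
    (d : ∀ i, θ (X (Sum.inr i)) = (ρ (γ i)).det - j (r (γ i)).det)
    (hτ : ∀ l ∉ J, ρ (τ l) = 1) : (Qv ϖ (DJ iτ J)).comap φ ≤ RingHom.ker θ ∧
      (∀ i, X (Sum.inr i) ∈ RingHom.ker θ) ∧
      ∀ u w, φ u = (R w).trace → θ u = (ρ (FreeGroup.lift γ w)).trace := by
  have jm : ∀ o ∈ maximalIdeal O, j o = 0 := fun o h => by
    rw [hϖ.maximalIdeal_eq, Ideal.mem_span_singleton] at h
    obtain ⟨d, rfl⟩ := h
    rw [map_mul, hj, zero_mul]
  have jd : ∀ g, j (S.δ g) = 1 := fun g => by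
    obtain ⟨c, hc⟩ := H.del hϖ g
    rw [eq_add_of_sub_eq hc, map_add, map_mul, hj, zero_mul, zero_add, map_one]
  obtain ⟨χ, hχ⟩ := H.db
  obtain ⟨θ', k1, k2, -, k4⟩ := pt hS H.h1 (by simp [H.pc.hT]) H.hc hχ.gen j ρ
    (fun o h => by rw [jm o h]; exact zero_mem _) hρ (fun g => by rw [hdet, jd]) hop hun
  have hC : ∀ o, θ'.comp φ (C o) = θ (C o) := fun o => by rw [RingHom.comp_apply, H.ph.c, k1, c]
  have hX : ∀ s, θ'.comp φ (X s) = θ (X s) := by
    rintro (s | i)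
    · rw [RingHom.comp_apply, H.ph.t, t, map_sub, k1, AddMonoidHom.map_trace, k4 _ _ (H.ph.lm _),
        Ut.lift_wd]
    · rw [RingHom.comp_apply, H.ph.d, d, map_sub, k1, RingHom.map_det, RingHom.mapMatrix_apply,
        k4 _ _ (H.ph.lm _), FreeGroup.lift_apply_of]
  have l1 : ∀ u ∈ maximalIdeal _, θ'.comp φ u ∈ maximalIdeal V := fun u h => k2 _ (H.ph.loc u h)
  have he : θ'.comp φ = θ := Tor.hom_ext l1 (Tor.loc_of
    (fun o h => by rw [c, jm o h]; exact zero_mem _)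
    fun s => by rw [← hX]; exact l1 _ ((Cpl.mem_max_iff _).2 (by simp))) hC hX
  refine ⟨?_, fun i => ?_, fun u w h => ?_⟩
  · rw [← he, ← RingHom.comap_ker]
    refine Ideal.comap_mono (sup_le ((Ideal.span_singleton_le_iff_mem _).2 ((k1 ϖ).trans hj))
      (Ideal.span_le.2 ?_))
    rintro _ ⟨⟨⟨i, a, b⟩, h⟩, rfl⟩
    obtain ⟨l, hl, rfl⟩ := Finset.mem_image.1 (Finset.mem_product.1 h).1
    have := congrFun (congrFun (k4 _ _ (lm_gen hS (iτ l))) a) b
    rw [H.pc.hτ, hτ l (Finset.mem_compl.1 hl)] at this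
    change θ' (C (S.c0 _ a b) + X (iτ l, a, b)) = _ at this
    rwa [map_add, k1, H.hc, Matrix.one_apply, Matrix.one_apply, apply_ite j, map_one, map_zero,
      add_eq_left] at this
  · rw [RingHom.mem_ker, d, hdet, ← H.hδ, jd, sub_self]
  · rw [← he, RingHom.comp_apply, h, AddMonoidHom.map_trace, k4 _ _ (H.ph.lm _)]

end Vale.Agent.P022S.Geo
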