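import Vale.Agent.P022S.Geo.Zed0
import Vale.Agent.P022S.Koch.Main

/-!
# P022S: the component in characteristic zero, with minimal generators
-/

set_option linter.all false

noncomputable section

namespace Vale.Agent.P022S.Geo.Zd

open IsLocalRing MvPowerSeries NumberField
open Vale.Agent.P022
open Vale.Agent.P027M.S (mx)
open Vale.Agent.P022D.Sel (M2)
open Vale.Agent.P022D.PA (Base)
open Vale.Agent.P022G.Pres
open Vale.Agent.P022S.Koch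

variable {O F ι : Type} [CommRing O] [IsDomain O] [IsDiscreteValuationRing O] [Field F]
  [IsAdicComplete (maximalIdeal O) O] [Fintype ι] {S : Dt O F ι} [Finite F] [CharP F 2]
  [DecidableEq ι] {χ : ι → GQ → ZMod 2} {C' : Finset ℕ} {P : ℕ → Ideal (𝓞 Qb)} {τ f : ℕ → GQ}
  {ic : ι} {iτ : C' → ι}

/-- **the component through the point `r`** -/
theorem zed1 (hS : S.Ok) (h1 : ∀ g, S.rb g = 1) (hχ : Db S.T S.gam χ) (H : Pc S C' P τ f ic iτ)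
    (hι : C'.card + 2 ≤ Fintype.card ι) {X : Finset ℕ} (hX : X ⊆ C') (r : GQ →* M2 O)
    (hδ : ∀ g, S.δ g = (r g).det) (hr : ∀ g a b, S.red (r g a b) = mx S.rb g a b)
    (cont : ∀ N : ℕ, IsOpen {g | (r g).map (Ideal.Quotient.mk (maximalIdeal O ^ N)) = 1})
    (un : Un S.T r) (hτ : ∀ l ∈ X, r (τ l) = 1) (irr : ∃ g h, (r g * r h - r h * r g).det ≠ 0)
    {A : Type} [CommRing A] [Base A] (φ : A →+* PP O ι)
    (hφ : ∀ x ∈ maximalIdeal A, φ x ∈ maximalIdeal (PP O ι)) (hC : ∀ o, ∃ u, φ u = C o)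
    (hd : ∀ i, (S.Z i).det ∈ φ.range)
    (ht : ∀ l : List ι, l.Nodup → (l.map S.Z).prod.trace ∈ φ.range) :
    ∃ (q : Ideal (PP O ι)) (θ : PP O ι →+* O), q.IsPrime ∧ Jac S ≤ q ∧
      (∀ l : C', (l : ℕ) ∈ X → (S.Z (iτ l)).map (Ideal.Quotient.mk q) = 1) ∧
      q ≤ RingHom.ker θ ∧ (∀ o, θ (C o) = o) ∧ (∀ g M, Uv S g M → M.map θ = r g) ∧
      ((3 : ℕ) : WithBot ℕ∞) ≤ ringKrullDim (A ⧸ q.comap φ) := by
  obtain ⟨θ, t1, t2, t3⟩ := pt hS r hδ hr cont un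
  let u : X → ι := fun a => iτ ⟨a, hX a.2⟩
  let E0 : ι ⊕ (X × Fin 3) ⊕ Unit → PP O ι := Sum.elim (Cn.dt S) (Sum.elim
    (fun p => ![S.Z (u p.1) 0 0 - 1, S.Z (u p.1) 0 1, S.Z (u p.1) 1 0] p.2)
    fun _ => (S.Z ic).trace)
  have hz : ∀ (a : X) i j, θ (S.Z (u a) i j) = (1 : M2 O) i j := fun a i j => by
    have := congrFun (congrFun (t2 _ _ (uv_gen (u a))) i) j
    rwa [H.hτ, hτ _ a.2] at this
  have e0 : ∀ k, θ (E0 k) = 0 := by
    rintro (i | ⟨a, c⟩ | c)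
    · exact t3 (Cn.dt_mem i)
    · fin_cases c
      · show θ (S.Z (u a) 0 0 - 1) = 0
        rw [map_sub, hz, map_one]; simp
      · show θ (S.Z (u a) 0 1) = 0
        rw [hz]; simp
      · show θ (S.Z (u a) 1 0) = 0
        rw [hz]; simp
    · exact t3 (Cn.tr_jac (P022G.Tr.Pr.conj_sq H.cj) H.odd)
  have m : ∀ k, E0 k ∈ Ideal.span (Set.range E0) := fun k => Ideal.subset_span ⟨k, rfl⟩
  have d1 : ∀ l : C', (l : ℕ) ∈ X → S.δ (τ l) = 1 := fun l hl => by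
    rw [hδ, hτ _ hl, Matrix.det_one]
  obtain ⟨n, e, k1, k2, k3⟩ := koch0 hS h1 hχ H X (Lst := Ideal.span (Set.range E0))
    ((Ideal.span_le.2 (by rintro _ ⟨k, rfl⟩; exact e0 k)).trans
      (le_maximalIdeal (RingHom.ker_ne_top θ))) (fun i => m (Sum.inl i))
    (m (Sum.inr (Sum.inr ()))) d1 fun l hl => ⟨m (Sum.inr (Sum.inl (⟨l, hl⟩, 0))),
      m (Sum.inr (Sum.inl (⟨l, hl⟩, 1))), m (Sum.inr (Sum.inl (⟨l, hl⟩, 2)))⟩
  obtain ⟨g, h, irr⟩ := irr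
  obtain ⟨M, hM⟩ := ex_lm hS h1 g
  obtain ⟨N, hN⟩ := ex_lm hS h1 h
  obtain ⟨q, q1, q2, q3, q4⟩ := zed (S := S) (θ := θ) (Sum.elim e E0)
    (by rintro (i | k); exacts [t3 (k2 i), e0 k]) (by
      have := Finset.card_sdiff_add_card_eq_card hX
      simp only [Fintype.card_sum, Fintype.card_prod, Fintype.card_fin, Fintype.card_coe,
        Fintype.card_unit]
      omega) φ hC M N (by rwa [t2 _ _ hM.uv, t2 _ _ hN.uv]) (Wd hS) hM.wd hN.wd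
    (fun i => (lm_gen hS i).wd) fun q _ x hx => by
      obtain ⟨⟨a, ha⟩, b, hb⟩ := tr_wd φ hφ hd ht hS hx
      exact ⟨⟨a, by rw [ha, sub_self]; exact q.zero_mem⟩, b, by rw [hb, sub_self]; exact q.zero_mem⟩
  refine ⟨q, θ, q1, k3.trans (sup_le (Ideal.span_le.2 ?_) (Ideal.span_le.2 ?_)), fun l hl => ?_,
    q3, t1, t2, q4⟩
  · rintro _ ⟨i, rfl⟩; exact q2 (Sum.inl i)
  · rintro _ ⟨k, rfl⟩; exact q2 (Sum.inr k)
  · have a : Ideal.Quotient.mk q (S.Z (iτ l) 0 0) = 1 :=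
      Ideal.Quotient.eq.2 (q2 (Sum.inr (Sum.inr (Sum.inl (⟨l, hl⟩, 0)))))
    have b : Ideal.Quotient.mk q (S.Z (iτ l) 0 1) = 0 :=
      Ideal.Quotient.eq_zero_iff_mem.2 (q2 (Sum.inr (Sum.inr (Sum.inl (⟨l, hl⟩, 1)))))
    have c : Ideal.Quotient.mk q (S.Z (iτ l) 1 0) = 0 :=
      Ideal.Quotient.eq_zero_iff_mem.2 (q2 (Sum.inr (Sum.inr (Sum.inl (⟨l, hl⟩, 2)))))
    have d := Ideal.Quotient.eq.2 (q2 (Sum.inr (Sum.inl (iτ l))))
    rw [H.hτ, d1 l hl, map_one, map_one, Matrix.det_fin_two, map_sub, map_mul, map_mul, a, b,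
      zero_mul, one_mul, sub_zero] at d
    ext x y
    fin_cases x <;> fin_cases y
    exacts [a, b, c, d]

end Vale.Agent.P022S.Geo.Zd
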