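import Vale.Agent.P022S.Geo.Set
import Vale.Agent.P022S.Geo.Zed1
import Vale.Agent.P022S.Koch.Sub

/-!
# P022S: the framed ring of the minimal generators, with fixed names; the component over `O`
-/

set_option linter.all false

noncomputable section

namespace Vale.Agent.P022S.Geo

open NumberField IsLocalRing MvPowerSeries
open Vale.Agent.P022
open Vale.Agent.P027M.S (Inert mx)
open Vale.Agent.P022D.Sel (M2)
open Vale.Agent.P022E.Loc (Pl)
open Vale.Agent.P022G.Pres (PP Ix Dt Jac Un Adm pm pm_apply pm_one go_jac)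
open Vale.Agent.P022S.Koch Vale.Agent.P022S.R Vale.Agent.P022S.Loc

variable {O F : Type} [CommRing O] [Field F] {S : Dat O F} {L : Pl O} [Finite F] [CharP F 2]

/-- **the setup**, with prescribed names `jc`, `jτ` -/
theorem setup2 [IsLocalRing O] [IsNoetherianRing O] [IsAdicComplete (maximalIdeal O) O]
    (h : OkG L S) (hW : L.W = ∅) (h1 : ∀ g, S.rb g = 1) (un : Un S.T L.r)
    (h2 : (2 : O) ≠ 0) {n : ℕ} {γ : Fin n → GQ} (hG : Mod.Gen2 S.T ∅ γ) {jc : Fin n}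
    {jτ : L.C → Fin n} (wc : γ jc = L.c) (wτ : ∀ l, γ (jτ l) = L.τ l) :
    ∃ (ι : Type) (_ : Fintype ι) (_ : DecidableEq ι) (e : ι → Fin n) (χ : ι → GQ → ZMod 2)
      (i2 ic : ι) (iτ : L.C → ι) (hS : (d0 S L fun i => γ (e i)).Ok)
      (R : FreeGroup (Fin n) →* M2 (PP O ι))
      (φ : MvPowerSeries (Finset (Fin n) ⊕ Fin n) O →+* PP O ι),
      Db S.T (fun i => γ (e i)) χ ∧ Pc (d0 S L fun i => γ (e i)) L.C L.P L.τ L.φ ic iτ ∧
      e ic = jc ∧ (∀ l, e (iτ l) = jτ l) ∧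
      Function.Injective (Sum.elim ![i2, ic] iτ) ∧ L.C.card + 2 ≤ Fintype.card ι ∧
      Ph hS γ L.r e R φ := by
  have hT : S.T = insert 0 (insert 2 L.C) := by rw [h.hT, hW, Finset.empty_union]
  have m : ∀ l ∈ L.C, l ∈ L.W ∪ L.C := fun l hl => Finset.mem_union_right _ hl
  have ov : ∀ l ∈ L.C, P022E.GW.Ov l (L.P l) := fun l hl =>
    ⟨(h.pr l (m l hl)).1, (h.hP l (m l hl)).1, (h.hP l (m l hl)).2⟩
  have n2 : 2 ∉ L.C := fun k => (h.pr 2 (m 2 k)).2 rfl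
  obtain ⟨ι, j1, j2, e, χ, i2, ic, iτ, a1, a2, a3, a4⟩ := ex_sub (T := S.T) (C := L.C)
    (by simp [hT]) (fun l hl => by simp [hT, hl]) n2 L.P ov γ
    (fun x hx k => sep_of (fun Γ _ _ f ho ht hu => hG Γ f ho ht fun l hl a _ => hu l hl a) x hx
      (by rintro _ ⟨i, rfl⟩; exact k i)) jc jτ
    (fun l => wτ l ▸ gn_tm (ov l l.2) (h.tm l (m l l.2))) (wc ▸ h.cj)
  have hS := d0_ok h h1 un a1
  obtain ⟨R, φ, H⟩ := exists_ph hS h1 γ L.r (r_res h h1) e
    (fun i j k => a1.inj (congrArg γ k)) fun _ => rfl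
  have b2 : γ (e ic) = L.c := by rw [a2, wc]
  refine ⟨ι, j1, j2, e, χ, i2, ic, iτ, hS, R, φ, a1, ⟨hT, ov, n2, fun l hl => h.tm l (m l hl),
    (b2 ▸ h.cj : P022.IsConj (γ (e ic))), ?_, fun k => h2 ?_, fun l => ?_⟩, a2, a3, a4,
    card_le a4, H⟩
  · show (L.r (γ (e ic))).det = -1
    rw [b2, h.odd]
  · have k1 : L.c = 1 := b2.symm.trans k
    have k2 := h.odd
    rw [k1, map_one, Matrix.det_one] at k2
    linear_combination k2
  · show γ (e (iτ l)) = L.τ l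
    rw [a3, wτ]

/-- the point of the framed ring restricts to the constant coefficient -/
theorem Ph.cc [IsLocalRing O] {ι : Type} {D : Dt O F ι} {hS : D.Ok} {n : ℕ} {γ : Fin n → GQ}
    {r : GQ →* M2 O} {e : ι → Fin n} {R : FreeGroup (Fin n) →* M2 (PP O ι)}
    {φ : MvPowerSeries (Finset (Fin n) ⊕ Fin n) O →+* PP O ι} (H : Ph hS γ r e R φ)
    {θ : PP O ι →+* O} (t1 : ∀ o, θ (C o) = o) (t2 : ∀ g M, Uv D g M → M.map θ = r g)
    (f : MvPowerSeries (Finset (Fin n) ⊕ Fin n) O) : θ (φ f) = constantCoeff f := by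
  obtain ⟨g, hg, -⟩ := P022D.CA.Cpl.exists_decompV (f - C (constantCoeff f)) (by simp)
  have hx : ∀ s, θ (φ (X s)) = 0 := by
    rintro (s | i)
    · rw [H.t, map_sub, t1, AddMonoidHom.map_trace, t2 _ _ (H.lm _).ev, Ut.lift_wd, sub_self]
    · rw [H.d, map_sub, t1, RingHom.map_det, RingHom.mapMatrix_apply, t2 _ _ (H.lm _).ev,
        FreeGroup.lift_apply_of, sub_self]
  have k := congrArg (fun u => θ (φ u)) hg
  simp only [map_sub, map_sum, map_mul, hx, zero_mul, Finset.sum_const_zero, H.c, t1] at k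
  exact sub_eq_zero.1 k

/-- **the component over `O` through the point**, in the framed ring -/
theorem Ph.zed [IsDomain O] [IsDiscreteValuationRing O] [P022D.Core.Coef O] (h : OkG L S)
    (h1 : ∀ g, S.rb g = 1) (un : Un S.T L.r) {ι : Type} [Fintype ι] [DecidableEq ι] {n : ℕ}
    {γ : Fin n → GQ} {e : ι → Fin n} {χ : ι → GQ → ZMod 2} {ic : ι} {iτ : L.C → ι}
    {hS : (d0 S L fun i => γ (e i)).Ok} {R : FreeGroup (Fin n) →* M2 (PP O ι)}
    {φ : MvPowerSeries (Finset (Fin n) ⊕ Fin n) O →+* PP O ι} (H : Ph hS γ L.r e R φ)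
    (hχ : Db S.T (fun i => γ (e i)) χ)
    (K : Pc (d0 S L fun i => γ (e i)) L.C L.P L.τ L.φ ic iτ)
    (hι : L.C.card + 2 ≤ Fintype.card ι) {X : Finset ℕ} (hX : X ⊆ L.C)
    (hτ : ∀ l ∈ X, L.r (L.τ l) = 1) (irr : ∃ g k, (L.r g * L.r k - L.r k * L.r g).det ≠ 0) :
    ∃ q : Ideal (PP O ι), q.IsPrime ∧ Jac (d0 S L fun i => γ (e i)) ≤ q ∧
      (∀ l ∈ X, ∀ k, γ k = L.τ l → (R (FreeGroup.of k)).map (Ideal.Quotient.mk q) = 1) ∧
      (∀ f, φ f ∈ q → constantCoeff f = 0) ∧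
      ((3 : ℕ) : WithBot ℕ∞) ≤
        ringKrullDim (MvPowerSeries (Finset (Fin n) ⊕ Fin n) O ⧸ q.comap φ) := by
  haveI : IsAdicComplete (maximalIdeal O) O := P022D.Core.Coef.cpl
  haveI : Finite (ResidueField O) := P022D.Core.Coef.fin
  haveI : P022D.PA.Base (MvPowerSeries (Finset (Fin n) ⊕ Fin n) O) :=
    { cpl := P022D.CA.Cpl.isAdicCompleteV inferInstance, fin := P022D.CA.Cpl.finite_residue }
  obtain ⟨q, θ, q1, q2, q3, q4, t1, t2, q5⟩ := Zd.zed1 hS h1 hχ K hι hX L.r (fun _ => rfl)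
    (fun g a b => congrFun (congrFun (h.lift g) a) b) h.cont un hτ irr φ H.loc
    (fun o => ⟨_, H.c o⟩) (fun i => H.z i ▸ (H.mem _).2) fun l _ => H.list l
  refine ⟨q, q1, q2, fun l hl k hk => ?_, fun f hf => (H.cc t1 t2 f).symm.trans (q4 hf), q5⟩
  have a := H.lm (FreeGroup.of k)
  have b := lm_gen hS (iτ ⟨l, hX hl⟩)
  rw [FreeGroup.lift_apply_of, hk] at a
  rw [K.hτ] at b
  exact (lm_eq a b q2).trans (q3 ⟨l, hX hl⟩ hl)

end Vale.Agent.P022S.Geo
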