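import Vale.Agent.P022S.Geo.Phi
import Vale.Agent.P022S.Loc.Defs
import Vale.Agent.P022G.Tr.Ag0
import Vale.Agent.P022G.Word

/-!
# P022S: the quotients of the universal ring are test objects
-/

set_option linter.all false

noncomputable section

namespace Vale.Agent.P022S.Geo.Ag

open NumberField IsLocalRing MvPowerSeries
open Vale.Agent.P022 Vale.Agent.P022S.R Vale.Agent.P022S.Loc
open Vale.Agent.P027M.S (Inert mx)
open Vale.Agent.P022D.Sel (M2)
open Vale.Agent.P022E.Loc (Pl)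
open Vale.Agent.P022G.Pres (PP Dt Jac Un Adm pm pm_apply pm_one)
open Vale.Agent.P022S.Koch (Lm)

variable {O F : Type} [CommRing O] [IsLocalRing O] [Field F] {S : Dat O F} {L : Pl O} {ι : Type}
  {D : Dt O F ι} {a : Ideal (PP O ι)}

/-- the data of the presentation belong to `S` and `L` -/
structure Mt (S : Dat O F) (L : Pl O) (D : Dt O F ι) : Prop where
  red : D.red = S.red
  rb : D.rb = S.rb
  hT : D.T = S.T
  det : ∀ g, D.δ g = (L.r g).det

/-- the test object of a good ideal -/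
def ob (hS : D.Ok) (m : Mt S L D) (ha : a ≤ maximalIdeal (PP O ι)) (hf : Finite (PP O ι ⧸ a))
    {ρ : GQ →* M2 (PP O ι ⧸ a)} (h : Adm D (Ideal.Quotient.mk a) ρ) : Obj S (PP O ι ⧸ a) where
  ι := (Ideal.Quotient.mk a).comp C
  π := hS.πq ha
  ρ := ρ
  α _ := 1
  β _ := 1
  fin := hf
  loc x hx := by
    obtain ⟨p, rfl⟩ := Ideal.Quotient.mk_surjective x
    exact (IsLocalRing.notMem_maximalIdeal.1 fun k => hx (hS.max.2 k)).map _
  alg c := by
    show D.red (constantCoeff (C c : PP O ι)) = _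
    rw [constantCoeff_C, m.red]
  res := m.rb ▸ h.red fun _ => rfl
  opn := h.opn
  inv _ := mul_one _
  one _ := Matrix.map_one _ (map_zero _) (map_one _)
  off _ _ := rfl
  fr := rfl

theorem lm_prod {hS : D.Ok} {Φ : GQ → M2 (PP O ι)} (hΦ : ∀ g, Lm hS g (Φ g)) (l : List GQ) :
    Lm hS l.prod (l.map Φ).prod := by
  induction l with
  | nil =>
    have := Koch.lm_word hS 1
    rwa [map_one, map_one] at this
  | cons x l ih =>
    rw [List.map_cons, List.prod_cons, List.prod_cons]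
    exact (hΦ x).mul ih

/-- **the test objects see the universal ring** -/
theorem core [IsNoetherianRing O] [IsAdicComplete (maximalIdeal O) O] [Finite F] [Fintype ι]
    (hS : D.Ok) (m : Mt S L D) (hW : L.W = ∅) (hc : (L.r L.c).det = -1) {f : PP O ι}
    (h : ∀ (B : Type) [CommRing B] (X : Obj S B) (u : PP O ι →+* B), Ty (ClG L S) ∅ B X →
      X.ι = u.comp C → (∀ l, X.α l = 1 ∧ X.β l = 1) → (∀ g M, Lm hS g M → X.ρ g = M.map u) →
      u f = 0) : f ∈ Jac D := by
  have := P022D.L2b.isAdicCompleteV (σ := P022G.Pres.Ix ι) (V := O) inferInstance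
  have ha : ∀ k, Jac D ⊔ maximalIdeal (PP O ι) ^ (k + 1) ≤ maximalIdeal (PP O ι) := fun k =>
    sup_le (sInf_le (P022G.Pres.go_max hS)) (Ideal.pow_le_self (Nat.succ_ne_zero k))
  have hf : ∀ k, Finite (PP O ι ⧸ (Jac D ⊔ maximalIdeal (PP O ι) ^ (k + 1))) := fun k =>
    haveI := P022G.Pres.fin_pow hS (k + 1)
    Finite.of_surjective _ (Ideal.Quotient.factor_surjective le_sup_right)
  refine P022G.Tr.Ag.krull _ fun k => Ideal.Quotient.eq_zero_iff_mem.1 ?_
  obtain ⟨ρ, hρ⟩ := (P022G.Pres.go_jac hS (k + 1)).2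
  have d : ∀ g, (ρ g).det = Ideal.Quotient.mk _ (C (L.r g).det) := fun g => m.det g ▸ hρ.det g
  refine h _ (ob hS m (ha k) (hf k) hρ) _ ⟨⟨fun g _ => d g, (d _).trans ?_, fun l _ => d _,
    fun l hl => absurd (hW ▸ hl) (Finset.notMem_empty l)⟩, fun l h1 h2 _ P h3 h4 g hg =>
      hρ.unr l (m.hT ▸ h2) P ⟨h1, h3, h4⟩ g hg⟩ rfl (fun _ => ⟨rfl, rfl⟩) fun g M hM =>
    hM.ev _ _ _ ⟨k + 1, by rw [Ideal.mk_ker]; exact le_sup_right⟩ hρ
  rw [hc, map_neg, map_neg, map_one, map_one]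

theorem lift_wd {n : ℕ} (γ : Fin n → GQ) (s : Finset (Fin n)) :
    FreeGroup.lift γ (P022G.Word.wd FreeGroup.of s) = P022G.Word.wd γ s := by
  rw [P022G.Word.wd, P022G.Word.wd, map_list_prod, List.map_map]
  exact congrArg (fun f => ((s.sort (· ≤ ·)).map f).prod)
    (funext fun i => FreeGroup.lift_apply_of)

/-- the same for the symbols -/
theorem sym [IsNoetherianRing O] [IsAdicComplete (maximalIdeal O) O] [Finite F] [Fintype ι]
    {hS : D.Ok} (m : Mt S L D) (hW : L.W = ∅) (hc : (L.r L.c).det = -1) {n : ℕ} {γ : Fin n → GQ}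
    {e : ι → Fin n} {R : FreeGroup (Fin n) →* M2 (PP O ι)}
    {φ : MvPowerSeries (Finset (Fin n) ⊕ Fin n) O →+* PP O ι} (H : Ph hS γ L.r e R φ)
    {f : MvPowerSeries (Finset (Fin n) ⊕ Fin n) O}
    (h : ∀ (B : Type) [CommRing B] (Y : Obj S B)
      (ψ : MvPowerSeries (Finset (Fin n) ⊕ Fin n) O →+* B), Ty (ClG L S) ∅ B Y →
      (∀ o, ψ (C o) = Y.ι o) →
      (∀ s, ψ (X (Sum.inl s)) = (Y.ρ (P022G.Word.wd γ s)).trace -
        Y.ι (L.r (P022G.Word.wd γ s)).trace) →
      (∀ i, ψ (X (Sum.inr i)) = (Y.ρ (γ i)).det - Y.ι (L.r (γ i)).det) → ψ f = 0) :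
    φ f ∈ Jac D :=
  core hS m hW hc fun B _ Y u h1 h2 _ h3 => h B Y (u.comp φ) h1
    (fun o => by rw [RingHom.comp_apply, H.c, h2]; rfl)
    (fun s => by
      have := H.lm (P022G.Word.wd FreeGroup.of s)
      rw [lift_wd] at this
      rw [RingHom.comp_apply, H.t, map_sub, h2, h3 _ _ this, AddMonoidHom.map_trace]
      rfl)
    fun i => by
      have := H.lm (FreeGroup.of i)
      rw [FreeGroup.lift_apply_of] at this
      rw [RingHom.comp_apply, H.d, map_sub, h2, h3 _ _ this, RingHom.map_det]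
      rfl

end Vale.Agent.P022S.Geo.Ag
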