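import Vale.Agent.P022S.Geo.Down3
import Vale.Agent.P022G.Tr.Td
import Vale.Agent.P022G.Conn.Fam

/-!
# P022S: the ring of traces of the free group is cut by invariant equations
-/

set_option linter.all false

noncomputable section

namespace Vale.Agent.P022S.Geo

open IsLocalRing MvPowerSeries
open Vale.Agent.P022D.Sel (M2)
open Vale.Agent.P022D.CA Vale.Agent.P022G Vale.Agent.P022G.Trc Vale.Agent.P022G.Chain
open Vale.Agent.P022G.Pres (PP Ix)

section abs
variable {A : Type} [CommRing A] [IsLocalRing A] [IsNoetherianRing A]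

/-- a component of dimension `d + 1` below a prime -/
theorem pres_of {I K : Ideal A} {d : ℕ} (H : CC I d) (dn : ∀ p, Cv p → I ≤ p → K ≤ p)
    {p : Ideal A} (hp : p.IsPrime) (hK : K ≤ p) (hI : I ≤ p) : ∃ E, Pd K (d + 1) E ∧ E ≤ p := by
  obtain ⟨E, hE, h⟩ := Ideal.exists_minimalPrimes_le hI
  exact ⟨E, ⟨hE.1.1, le_of_cv' (ne_top_of_le_ne_top hp.ne_top hK) dn hE.1.1 hE.1.2, H.1 E hE⟩, h⟩

theorem conn_of {I K : Ideal A} {d : ℕ} (H : CC I d) (hI : I ≠ ⊤) (dn : ∀ p, Cv p → I ≤ p → K ≤ p)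
    (up : ∀ p, Cv p → K ≤ p → I ≤ p) : Cn K d := fun E E' hE hE' =>
  cn_congr (fun q hq => ⟨le_of_cv' (ne_top_of_le_ne_top hE.1.ne_top hE.2.1) dn hq,
    le_of_cv' hI up hq⟩) H.2 E E' hE hE'

end abs

variable {O F : Type} [CommRing O] [IsDomain O] [IsDiscreteValuationRing O] [Field F]
  [IsAdicComplete (maximalIdeal O) O] {ϖ : O} (red : O →+* F) (hs : Function.Surjective red)
  (hk : ∀ c, red c = 0 ↔ c ∈ maximalIdeal O) (hϖ : Irreducible ϖ)

/-- the uniformiser and some of the variables -/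
def Qv {σ : Type} (ϖ : O) (D : Finset σ) : Ideal (MvPowerSeries σ O) :=
  Ideal.span {C ϖ} ⊔ Ideal.span (Set.range fun s : D => X s.1)

include hϖ in
theorem Qv_le {σ : Type} (D : Finset σ) : Qv ϖ D ≤ maximalIdeal (MvPowerSeries σ O) := by
  refine sup_le ((Ideal.span_singleton_le_iff_mem _).2 ((Cpl.mem_max_iff _).2 ?_))
    (Ideal.span_le.2 ?_)
  · rw [constantCoeff_C, hϖ.maximalIdeal_eq]; exact Ideal.mem_span_singleton_self _
  · rintro _ ⟨s, rfl⟩
    exact (Cpl.mem_max_iff _).2 (by simp)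

include hs hk hϖ in
theorem Qv_prime {σ : Type} [Fintype σ] (D : Finset σ) : (Qv ϖ D).IsPrime := by
  classical
  haveI : IsDomain (MvPowerSeries σ F) := NoZeroDivisors.to_isDomain _
  haveI : IsAdicComplete (maximalIdeal F) F := by
    rw [IsLocalRing.maximalIdeal_eq_bot]; infer_instance
  haveI := Cpl.isAdicCompleteV (σ := σ) (V := F) inferInstance
  haveI := Cpl.isAdicCompleteV (σ := σ) (V := O) inferInstance
  have hx : ∀ s : σ, (if s ∈ D then 0 else X s : MvPowerSeries σ F) ∈ maximalIdeal _ := fun s => by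
    split_ifs
    · exact Ideal.zero_mem _
    · exact (Cpl.mem_max_iff _).2 (by simp)
  obtain ⟨ev, e1, e2⟩ := Conn.exists_ev (maximalIdeal (MvPowerSeries σ F))
    ((C : F →+* MvPowerSeries σ F).comp red) _ hx
  have hne : Qv ϖ D ≠ ⊤ := ne_top_of_le_ne_top (maximalIdeal.isMaximal _).ne_top (Qv_le hϖ D)
  haveI : Nontrivial (MvPowerSeries σ O ⧸ Qv ϖ D) := Ideal.Quotient.nontrivial_iff.2 hne
  haveI : IsLocalRing (MvPowerSeries σ O ⧸ Qv ϖ D) :=
    .of_surjective' _ (Ideal.Quotient.mk_surjective (I := Qv ϖ D))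
  haveI := Conn.complete_quot (Qv ϖ D)
  have hq : ∀ f ∈ maximalIdeal (MvPowerSeries σ O),
      Ideal.Quotient.mk (Qv ϖ D) f ∈ maximalIdeal (MvPowerSeries σ O ⧸ Qv ϖ D) := fun f hf => by
    rw [← map_maximalIdeal_of_surjective _ (Ideal.Quotient.mk_surjective (I := Qv ϖ D))]
    exact Ideal.mem_map_of_mem _ hf
  have hX : ∀ s, (X s : MvPowerSeries σ O) ∈ maximalIdeal _ := fun s =>
    (Cpl.mem_max_iff _).2 (by simp)
  let j : F →+* MvPowerSeries σ O ⧸ Qv ϖ D :=
    red.liftOfSurjective hs ⟨(Ideal.Quotient.mk _).comp C, fun o ho => by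
      rw [Tr.ker_red red hk hϖ, Ideal.mem_span_singleton] at ho
      obtain ⟨c, rfl⟩ := ho
      rw [RingHom.mem_ker, RingHom.comp_apply, Ideal.Quotient.eq_zero_iff_mem, map_mul]
      exact Ideal.mul_mem_right _ _ (Ideal.mem_sup_left (Ideal.mem_span_singleton_self _))⟩
  have hj : ∀ o, j (red o) = Ideal.Quotient.mk _ (C o) := fun o =>
    RingHom.liftOfSurjective_comp_apply _ _ _ _
  obtain ⟨g, g1, g2⟩ := Conn.exists_ev (maximalIdeal _) j _ fun s => hq _ (hX s)
  have hC : ∀ o, g.comp ev (C o) = Ideal.Quotient.mk _ (C o) := fun o => by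
    rw [RingHom.comp_apply, e1, RingHom.comp_apply, g1, hj]
  have hX' : ∀ s, g.comp ev (X s) = Ideal.Quotient.mk _ (X s) := fun s => by
    rw [RingHom.comp_apply, e2]
    split_ifs with h
    · rw [map_zero]
      have : (X s : MvPowerSeries σ O) ∈ Qv ϖ D :=
        Ideal.mem_sup_right (Ideal.subset_span ⟨⟨s, h⟩, rfl⟩)
      exact (Ideal.Quotient.eq_zero_iff_mem.2 this).symm
    · exact g2 s
  have e : g.comp ev = Ideal.Quotient.mk _ := Tor.hom_ext (Tor.loc_of
    (fun c hc => by rw [hC]; exact hq _ ((Cpl.mem_max_iff _).2 (by rwa [constantCoeff_C])))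
    fun s => by rw [hX']; exact hq _ (hX s)) hq hC hX'
  have : Qv ϖ D = RingHom.ker ev := by
    refine le_antisymm (sup_le ((Ideal.span_singleton_le_iff_mem _).2 ?_) (Ideal.span_le.2 ?_))
      fun f hf => ?_
    · rw [RingHom.mem_ker, e1, RingHom.comp_apply, (hk ϖ).2 (by
        rw [hϖ.maximalIdeal_eq]; exact Ideal.mem_span_singleton_self _), map_zero]
    · rintro _ ⟨s, rfl⟩
      show ev (X s.1) = 0
      rw [e2, if_pos s.2]
    · rw [← Ideal.Quotient.eq_zero_iff_mem, ← e, RingHom.comp_apply, RingHom.mem_ker.1 hf, map_zero]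
  rw [this]
  exact RingHom.ker_isPrime _

include hϖ in
theorem Qv_dim {σ : Type} [Fintype σ] (D : Finset σ) {k : ℕ} (h : k + D.card ≤ Fintype.card σ) :
    (k : WithBot ℕ∞) ≤ ringKrullDim (MvPowerSeries σ O ⧸ Qv ϖ D) := by
  obtain ⟨fs, h1, h2⟩ := Tr.ln_range fun s : D => (X s.1 : MvPowerSeries σ O)
  rw [Qv, ← h2]
  refine dimGE_ofList fs (fun f hf => Qv_le hϖ D (Ideal.mem_sup_right (h2 ▸ Tr.mem_ofList hf)))
    (le_trans ?_ (Tr.fib_dim hϖ σ))
  rw [h1, Fintype.card_coe]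
  exact_mod_cast h

/-- the generic matrices with centre one -/
def Z1 (O : Type) [CommRing O] {ι : Type} (i : ι) : M2 (PP O ι) :=
  Matrix.of fun a b => C ((1 : M2 O) a b) + X (i, a, b)

include hs hk hϖ in
theorem del_not {ι : Type} [Fintype ι] (D : Finset (Ix ι)) {i k : ι} (hik : i ≠ k)
    (hi : (i, 0, 1) ∉ D) (hk' : (k, 1, 0) ∉ D) :
    (Z1 O i * Z1 O k - Z1 O k * Z1 O i).det ∉ Qv ϖ D := by
  classical
  haveI : IsDomain (MvPowerSeries Unit F) := NoZeroDivisors.to_isDomain _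
  haveI : IsAdicComplete (maximalIdeal F) F := by
    rw [IsLocalRing.maximalIdeal_eq_bot]; infer_instance
  haveI := Cpl.isAdicCompleteV (σ := Unit) (V := F) inferInstance
  have hx : ∀ s : Ix ι, (if s = (i, 0, 1) ∨ s = (k, 1, 0) then X () else 0 :
      MvPowerSeries Unit F) ∈ maximalIdeal _ := fun s => by
    split_ifs
    · exact (Cpl.mem_max_iff _).2 (by simp)
    · exact Ideal.zero_mem _
  obtain ⟨ev, e1, e2⟩ := Conn.exists_ev (maximalIdeal (MvPowerSeries Unit F))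
    ((C : F →+* MvPowerSeries Unit F).comp red) _ hx
  have hle : Qv ϖ D ≤ RingHom.ker ev := by
    refine sup_le ((Ideal.span_singleton_le_iff_mem _).2 ?_) (Ideal.span_le.2 ?_)
    · rw [RingHom.mem_ker, e1, RingHom.comp_apply, (hk ϖ).2 (by
        rw [hϖ.maximalIdeal_eq]; exact Ideal.mem_span_singleton_self _), map_zero]
    · rintro _ ⟨s, rfl⟩
      show ev (X s.1) = 0
      rw [e2, if_neg]
      rintro (h | h)
      · exact hi (h ▸ s.2)
      · exact hk' (h ▸ s.2)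
  intro h
  have h0 := RingHom.mem_ker.1 (hle h)
  have hX : (X () : MvPowerSeries Unit F) ≠ 0 := fun h => by
    simpa using congrArg (coeff (Finsupp.single () 1)) h
  simp [Z1, Matrix.det_fin_two, Matrix.mul_apply, Fin.sum_univ_two, e1, e2, hik, hik.symm,
    hX] at h0

include hs hk hϖ in
/-- **the ring of traces, cut by invariant equations** -/
theorem cc {ι σ : Type} [Fintype ι] [Fintype σ] (φ : MvPowerSeries σ O →+* PP O ι)
    (hC : ∀ o, φ (C o) = C o) (D : Finset (Ix ι)) {i k : ι} (hik : i ≠ k) (hi : (i, 0, 1) ∉ D)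
    (hk' : (k, 1, 0) ∉ D) (hd : ∀ i, ∃ u, φ u = (Z1 O i).det)
    (ht : ∀ l : List ι, ∃ u, φ u = (l.map (Z1 O)).prod.trace) (gs : List (MvPowerSeries σ O))
    (hg : ∀ g ∈ gs, g ∈ maximalIdeal (MvPowerSeries σ O)) {d : ℕ}
    (hn : d + gs.length + 4 + D.card ≤ 4 * Fintype.card ι) :
    CC ((Qv ϖ D).comap φ ⊔ Ideal.ofList gs) d := by
  haveI := Cpl.isAdicCompleteV (σ := σ) (V := O) inferInstance
  haveI := (P022D.Rl.Ch0.reg (σ := σ) hϖ.maximalIdeal_eq).1
  have hq := Qv_prime red hs hk hϖ D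
  have m : ∀ x, (∃ u, φ u = x) → x ∈ {x | ∃ u, φ u = x} := fun _ h => h
  refine cut_list gs (Tr.fib_cf red hs hk hϖ (by
    rw [Ideal.mem_comap, hC]; exact Ideal.mem_sup_left (Ideal.mem_span_singleton_self _)))
    (cc_prime (Ideal.comap_isPrime φ _) (down3 φ hq (fun o => ⟨_, hC o⟩) _ _
      (del_not red hs hk hϖ D hik hi hk') (Z1 O) (fun ⟨i, a, b⟩ => ⟨i, a, b, (1 : M2 O) a b,
        (add_sub_cancel_left _ _).symm⟩) {x | ∃ u, φ u = x}
      (fun x ⟨u, hu⟩ => ⟨u, by rw [hu, sub_self]; exact Ideal.zero_mem _⟩)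
      (m _ (by simpa using ht [i])) (hd i) (m _ (by simpa using ht [k])) (hd k)
      (m _ (by simpa using ht [i, k])) (fun j => ⟨m _ (by simpa using ht [j]),
        m _ (by simpa using ht [j, i]), m _ (by simpa using ht [j, k]),
        m _ (by simpa using ht [j, i, k])⟩) _ (Qv_dim hϖ D ?_))) hg
  rw [Fintype.card_prod, Fintype.card_prod, Fintype.card_fin]
  omega

end Vale.Agent.P022S.Geo
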