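import Vale.Agent.P022S.Geo.Set2
import Vale.Agent.P022S.Geo.Ag
import Vale.Agent.P022S.Geo.Cc
import Vale.Agent.P022S.Rw.Wm86
import Vale.Agent.P022G.Curve

/-!
# P022S: a curve which satisfies the listed equations satisfies all equations
-/

set_option linter.all false

noncomputable section

namespace Vale.Agent.P022S.H80

open NumberField IsLocalRing MvPowerSeries
open Vale.Agent.P022 Vale.Agent.P022S.R Vale.Agent.P022S.Loc Vale.Agent.P022S.Geo
open Vale.Agent.P027M.S (Inert mx)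
open Vale.Agent.P022D.Sel (M2)
open Vale.Agent.P022D.Core (PS Coef)
open Vale.Agent.P022E.Loc (Pl)
open Vale.Agent.P022G.Pres (Ix Dt Jac Un pm pm_apply)
open Vale.Agent.P022S.Koch (Db Lm koch2)

variable {O F : Type} [CommRing O] [IsDomain O] [IsDiscreteValuationRing O] [Coef O] [Field F]
  [Finite F] [CharP F 2] {ϖ : O} {S : Dat O F} {L : Pl O} {X : Finset ℕ} {as : ℕ} {κ : Type}
  {gk : κ → GQ} {n : ℕ} {G : Gs S L gk n} {ι : Type} [Fintype ι] [DecidableEq ι] {e : ι → Fin n}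
  {hS : (d0 S L fun i => G.γ (e i)).Ok} {R : FreeGroup (Fin n) →* M2 (P022G.Pres.PP O ι)}
  {φ : MvPowerSeries (Finset (Fin n) ⊕ Fin n) O →+* P022G.Pres.PP O ι}

theorem ph_t (H : Ph hS G.γ L.r e R φ) {B : Type} [CommRing B] (θ : P022G.Pres.PP O ι →+* B)
    (s : Finset (Fin n)) : θ.comp φ (tS G.rc id s) =
      (wm (fun i => (R (FreeGroup.of i)).map θ) s).trace := by
  have k : wm G.rc s = L.r (P022G.Word.wd G.γ s) := Wm.wm_hom L.r G.γ s
  rw [← Wm.wm_map, Wm.wm_hom R, ← AddMonoidHom.map_trace, ← H.ts, tS, k]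
  rfl

theorem ph_d (H : Ph hS G.γ L.r e R φ) {B : Type} [CommRing B] (θ : P022G.Pres.PP O ι →+* B)
    (i : Fin n) : θ.comp φ (dS G.rc id i) = ((R (FreeGroup.of i)).map θ).det := by
  rw [← RingHom.mapMatrix_apply, ← RingHom.map_det, ← H.ds]
  rfl

theorem ne_τφ (G : Gs S L gk n) (l : L.C) : G.iτ l ≠ G.iφ l := fun h => by
  have := G.inj (a₁ := Sum.inr (Sum.inl l)) (a₂ := Sum.inr (Sum.inr l)) h
  simp at this

theorem c_mem (hϖ : Irreducible ϖ) {B : Type} [CommRing B] {σ : Type} {θ : PS O σ →+* B}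
    (h : θ (C ϖ) = 0) {c : O} (hc : c ∈ maximalIdeal O) : θ (C c) = 0 := by
  rw [hϖ.maximalIdeal_eq, Ideal.mem_span_singleton] at hc
  obtain ⟨u, rfl⟩ := hc
  rw [map_mul, map_mul, h, zero_mul]

theorem det_one (h : OkG L S) (g : GQ) : (L.r g).det - 1 ∈ maximalIdeal O :=
  (h.ker _).1 (by
    rw [map_sub, map_one, RingHom.map_det, RingHom.mapMatrix_apply, h.lift, h.det, sub_self])

/-- **from the listed equations to all equations** -/
theorem dn (hϖ : Irreducible ϖ) (hC : Cx S L X as) (H : Ph hS G.γ L.r e R φ)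
    {χ : ι → GQ → ZMod 2} {ic : ι} {iτ : L.C → ι} (hχ : Db S.T (fun i => G.γ (e i)) χ)
    (K : Koch.Pc (d0 S L fun i => G.γ (e i)) L.C L.P L.τ L.φ ic iτ) (ec : e ic = G.ic)
    (eτ : ∀ l, e (iτ l) = G.iτ l) (J : Finset L.C) {Q : Ideal (P022G.Pres.PP O ι)}
    (hQ : Q ≤ maximalIdeal _) (hX : ∀ l ∉ J, ∀ a b, MvPowerSeries.X (iτ l, a, b) ∈ Q)
    {p : Ideal (PS O (Sy n))} (hp : P022G.Chain.Cv p) (h1 : Q.comap φ ≤ p) (hπ : C ϖ ∈ p)
    (hd : ∀ i, dS G.rc id (e i) - 1 ∈ p) (hc : trS G.rc id G.ic ∈ p)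
    (hJ : ∀ l ∈ J, trS G.rc id (G.iτ l) ∈ p ∧ trS G.rc id (G.iφ l) ∈ p ∧
      tr2 G.rc id (G.iτ l) (G.iφ l) ∈ p) : G.IT ϖ J ≤ p := by
  haveI : IsAdicComplete (maximalIdeal O) O := Coef.cpl
  haveI : Finite (ResidueField O) := Coef.fin
  haveI : IsAdicComplete (maximalIdeal (PS O (Sy n))) (PS O (Sy n)) :=
    P022D.CA.Cpl.isAdicCompleteV inferInstance
  haveI : Finite (ResidueField (PS O (Sy n))) := P022D.CA.Cpl.finite_residue
  have m2 : (2 : O) ∈ maximalIdeal O :=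
    (hC.ok.ker 2).1 (by rw [map_ofNat]; exact CharTwo.two_eq_zero)
  obtain ⟨V, _, _, _, _, θ, k0, l0, _, _⟩ := P022G.Curve.curveP p hp.1 (by
    rw [← map_ofNat (C : O →+* PS O (Sy n)) 2, ← Ideal.Quotient.eq_zero_iff_mem]
    exact c_mem hϖ (Ideal.Quotient.eq_zero_iff_mem.2 hπ) m2) hp.2
  subst k0
  obtain ⟨V', _, _, f, θ', a1, a2, a3⟩ := lift_pt hS hC.rb1 (fun _ => rfl) H.c H.loc H.var
    (fun w => H.wz w ▸ (H.mem _).1) hQ θ (fun u hu => (l0 u).2 hu) h1 fun i =>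
      ⟨dS G.rc id (e i), H.z i ▸ H.ds (e i), by
        have := RingHom.mem_ker.1 (hd i)
        rwa [map_sub, map_one, sub_eq_zero] at this⟩
  have iff : ∀ u, u ∈ RingHom.ker θ ↔ θ'.comp φ u = 0 := fun u => by
    rw [a2, RingHom.comp_apply, map_eq_zero_iff f a1, RingHom.mem_ker]
  have ht := ph_t H θ'
  have hdd := ph_d H θ'
  have cπ : θ' (C ϖ) = 0 := by rw [← H.c]; exact (iff _).1 hπ
  have tr : ∀ M : M2 (P022G.Pres.PP O ι), θ' M.trace = (M.map θ').trace := fun M =>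
    AddMonoidHom.map_trace _ _
  have one : ∀ l ∉ J, (R (FreeGroup.of (G.iτ l))).map θ' = 1 := fun l hl => by
    rw [← eτ, H.z]
    refine Matrix.ext fun a b => ?_
    show θ' (C ((1 : M2 O) a b) + MvPowerSeries.X (iτ l, a, b)) = _
    rw [map_add, a3 _ (hX l hl), add_zero, Matrix.one_apply, Matrix.one_apply]
    split_ifs <;> simp
  have jac : Jac (d0 S L fun i => G.γ (e i)) ≤ RingHom.ker θ' := by
    refine koch2 hS hC.rb1 hχ K (Φ := fun l => R (FreeGroup.of (G.iφ l))) (fun l => ?_) J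
      (le_maximalIdeal (RingHom.ker_ne_top θ')) (fun i => ?_) ?_ (fun c h => c_mem hϖ cπ h)
      (fun l hl => ?_) fun l hl => ?_
    · have := H.lm (FreeGroup.of (G.iφ l))
      rwa [FreeGroup.lift_apply_of, G.hφ] at this
    · have b1 := (iff _).1 (hd i)
      have b2 := c_mem hϖ cπ (det_one hC.ok (G.γ (e i)))
      rw [map_sub, hdd, map_one, H.z, ← RingHom.mapMatrix_apply, ← RingHom.map_det] at b1
      rw [map_sub, map_sub, map_one, map_one] at b2
      show θ' (_ - C (L.r (G.γ (e i))).det) = 0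
      rw [map_sub]
      linear_combination b1 - b2
    · have b := (iff _).1 hc
      rw [Wm.trS_eq ht, ← ec, H.z, ← tr] at b
      exact b
    · obtain ⟨b1, b2, b3⟩ := hJ l hl
      have c1 := (iff _).1 b1
      have c2 := (iff _).1 b2
      have c3 := (iff _).1 b3
      rw [Wm.trS_eq ht, ← tr] at c1 c2
      rw [Wm.tr2_eq ht (ne_τφ G l), ← Matrix.map_mul, ← tr] at c3
      rw [← eτ, H.z] at c1 c3
      exact ⟨c1, c2, c3⟩
    · have b := one l hl
      rw [← eτ, H.z] at b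
      have b1 := congrFun (congrFun b 0) 0
      have b2 := congrFun (congrFun b 0) 1
      have b3 := congrFun (congrFun b 1) 0
      rw [Matrix.map_apply] at b1 b2 b3
      refine ⟨?_, b2.trans (by simp), b3.trans (by simp)⟩
      rw [RingHom.mem_ker, map_sub, b1, map_one, Matrix.one_apply_eq, sub_self]
  refine sup_le (sup_le (fun u hu => (iff u).2 (jac (Ag.ag hC G ⟨rfl, rfl, rfl, fun _ => rfl⟩ H hu)))
    ((Ideal.span_singleton_le_iff_mem _).2 hπ)) (Ideal.span_le.2 ?_)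
  rintro u (⟨l, hl, rfl | rfl | rfl⟩ | ⟨l, hl, hu⟩)
  exacts [(hJ l hl).1, (hJ l hl).2.1, (hJ l hl).2.2,
    (iff u).2 (Wm.tauP_of ht hdd (one l hl) u hu)]

end Vale.Agent.P022S.H80
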