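import Vale.Agent.P022G.Tor2

/-!
# P022S: the fibres of the map to the ring of traces have dimension at most three
-/

set_option linter.all false

noncomputable section

namespace Vale.Agent.P022S.Geo

open IsLocalRing Polynomial
open Vale.Agent.P022G Vale.Agent.P022G.Trc

theorem cramer {B : Type} [CommRing B] (K : Subring B) (a b c d e f g h t0 t1 t2 t3 : K)
    (x y z w D : B) (h0 : (t0 : B) = x + w) (h1 : (t1 : B) = x * a + y * c + (z * b + w * d))
    (h2 : (t2 : B) = x * e + y * g + (z * f + w * h))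
    (h3 : (t3 : B) = x * (a * e + b * g) + y * (c * e + d * g) +
      (z * (a * f + b * h) + w * (c * f + d * h)))
    (hD : D = (a * e + b * g - (e * a + f * c)) * (c * f + d * h - (g * b + h * d)) -
      (a * f + b * h - (e * b + f * d)) * (c * e + d * g - (g * a + h * c))) :
    D * x ∈ K ∧ D * y ∈ K ∧ D * z ∈ K ∧ D * w ∈ K := by
  refine ⟨?_, ?_, ?_, ?_⟩
  · rw [show D * x = ((
        (a*c*f*h - a*d*f*g - b*c*e*h + b*c*f*g + b*c*h^2 - b*d*g*h - c^2*f^2 + c*d*e*f -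
        c*d*f*h + d^2*f*g) * t0 +
        (a*f*g + b*g*h - c*e*f - d*f*g) * t1 +
        (-a*c*f + b*c*e - b*c*h + b*d*g) * t2 +
        (-b*g + c*f) * t3 : K) : B) by
      push_cast; rw [h0, h1, h2, h3, hD]; ring]
    exact Subtype.property _
  · rw [show D * y = ((
        (-a^2*f*h + a*b*e*h - a*b*h^2 + a*c*f^2 + a*d*f*h + b^2*g*h - b*c*e*f - b*d*f*g) * t0 +
        (a*f*h - b*e*h + b*f*g + b*h^2 - c*f^2 - d*f*h) * t1 +
        (a^2*f - a*b*e + a*b*h - a*d*f - b^2*g + b*c*f) * t2 +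
        (-a*f + b*e - b*h + d*f) * t3 : K) : B) by
      push_cast; rw [h0, h1, h2, h3, hD]; ring]
    exact Subtype.property _
  · rw [show D * z = ((
        (-a*c*f*g + a*d*e*g - b*c*g*h + b*d*g^2 + c^2*e*f - c*d*e^2 + c*d*e*h - d^2*e*g) * t0 +
        (-a*e*g - b*g^2 + c*e^2 - c*e*h + c*f*g + d*e*g) * t1 +
        (-a*d*g + b*c*g - c^2*f + c*d*e - c*d*h + d^2*g) * t2 +
        (a*g - c*e + c*h - d*g) * t3 : K) : B) by
      push_cast; rw [h0, h1, h2, h3, hD]; ring]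
    exact Subtype.property _
  · rw [show D * w = ((
        (a^2*f*g - a*b*e*g + a*b*g*h - a*c*e*f - a*d*f*g - b^2*g^2 + b*c*e^2 - b*c*e*h +
        b*c*f*g + b*d*e*g) * t0 +
        (-a*f*g - b*g*h + c*e*f + d*f*g) * t1 +
        (a*c*f - b*c*e + b*c*h - b*d*g) * t2 +
        (b*g - c*f) * t3 : K) : B) by
      push_cast; rw [h0, h1, h2, h3, hD]; ring]
    exact Subtype.property _

section
variable {A B : Type} [CommRing A] [IsNoetherianRing A] [CommRing B] [Algebra A B] [IsDomain B]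

/-- the fractions with numerator and denominator in `S` -/
def fr (S : Subalgebra A B) : Subring B where
  carrier := {y | ∃ u ∈ S, u ≠ 0 ∧ u * y ∈ S}
  mul_mem' := by
    rintro x y ⟨u, h1, h2, h3⟩ ⟨v, k1, k2, k3⟩
    exact ⟨u * v, mul_mem h1 k1, mul_ne_zero h2 k2, by
      rw [mul_mul_mul_comm]; exact mul_mem h3 k3⟩
  one_mem' := ⟨1, one_mem _, one_ne_zero, by rw [mul_one]; exact one_mem _⟩
  add_mem' := by
    rintro x y ⟨u, h1, h2, h3⟩ ⟨v, k1, k2, k3⟩
    exact ⟨u * v, mul_mem h1 k1, mul_ne_zero h2 k2, by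
      rw [show u * v * (x + y) = v * (u * x) + u * (v * y) by ring]
      exact add_mem (mul_mem k1 h3) (mul_mem h1 k3)⟩
  zero_mem' := ⟨1, one_mem _, one_ne_zero, by rw [mul_zero]; exact zero_mem _⟩
  neg_mem' := by
    rintro x ⟨u, h1, h2, h3⟩
    exact ⟨u, h1, h2, by rw [mul_neg]; exact neg_mem h3⟩

theorem fr_of {S : Subalgebra A B} {x : B} (h : x ∈ S) : x ∈ fr S :=
  ⟨1, one_mem _, one_ne_zero, by rwa [one_mul]⟩

theorem fr_div {S : Subalgebra A B} {v y : B} (hv : v ∈ fr S) (h0 : v ≠ 0) (h : v * y ∈ fr S) :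
    y ∈ fr S := by
  obtain ⟨u, h1, h2, h3⟩ := hv
  obtain ⟨u', k1, k2, k3⟩ := h
  exact ⟨u' * (u * v), mul_mem k1 h3, mul_ne_zero k2 (mul_ne_zero h2 h0), by
    rw [show u' * (u * v) * y = u * (u' * (v * y)) by ring]; exact mul_mem h1 k3⟩

theorem pair (M N : Matrix (Fin 2) (Fin 2) B) (hb : M 0 1 ≠ 0) (t n t' n' s : A)
    (ht : algebraMap A B t = M.trace) (hn : algebraMap A B n = M.det)
    (ht' : algebraMap A B t' = N.trace) (hn' : algebraMap A B n' = N.det)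
    (hs : algebraMap A B s = (M * N).trace) :
    ∃ S : Subalgebra A B, IsNoetherianRing S ∧ ringKrullDim S ≤ ringKrullDim A + (3 : ℕ) ∧
      (∀ i j, M i j ∈ fr S) ∧ ∀ i j, N i j ∈ fr S := by
  classical
  rw [Matrix.trace_fin_two] at ht ht' hs
  rw [Matrix.det_fin_two] at hn hn'
  rw [Matrix.mul_apply, Matrix.mul_apply, Fin.sum_univ_two, Fin.sum_univ_two] at hs
  let T : Finset B := {M 0 0, M 0 1, N 0 1}
  let R := Algebra.adjoin A (T : Set B)
  let a : R := ⟨M 0 0, Algebra.subset_adjoin (by simp [T])⟩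
  let b : R := ⟨M 0 1, Algebra.subset_adjoin (by simp [T])⟩
  let f : R := ⟨N 0 1, Algebra.subset_adjoin (by simp [T])⟩
  let j := algebraMap A R
  have hj : ∀ x, ((j x : R) : B) = algebraMap A B x := fun _ => rfl
  have h1 := Dim.step0 (A := A) T (N 0 0) ⟨C (-b ^ 2) * X ^ 2 +
      C (b ^ 2 * j t' + f * b * a - f * b * (j t - a)) * X +
      C (-b ^ 2 * j n' - f * b * j s + f * b * (j t - a) * j t' + (a * (j t - a) - j n) * f ^ 2),
    fun h => by
      have := congrArg (fun p => ((coeff p 2 : R) : B)) h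
      simp only [coeff_add, coeff_C_mul, coeff_X_pow, coeff_X, coeff_C] at this
      simp [b, hb] at this, by
      simp only [map_add, map_mul, aeval_C, aeval_X, map_pow, map_neg, map_sub,
        Subalgebra.algebraMap_apply, hj, ht, hn, ht', hn', hs, a, b, f]
      ring⟩
  have h2 := Dim.adj_le (A := A) T
  have h3 : ((T.card : ℕ) : WithBot ℕ∞) ≤ (3 : ℕ) := by exact_mod_cast Finset.card_le_three
  set S := Algebra.adjoin A ((insert (N 0 0) T : Finset B) : Set B)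
  have m : ∀ x, x ∈ (insert (N 0 0) T : Finset B) → x ∈ fr S := fun x hx =>
    fr_of (Algebra.subset_adjoin hx)
  have mA : ∀ x, algebraMap A B x ∈ fr S := fun x => fr_of (S.algebraMap_mem x)
  have a00 : M 0 0 ∈ fr S := m _ (by simp [T])
  have a01 : M 0 1 ∈ fr S := m _ (by simp [T])
  have b00 : N 0 0 ∈ fr S := m _ (by simp [T])
  have b01 : N 0 1 ∈ fr S := m _ (by simp [T])
  have a11 : M 1 1 ∈ fr S := by
    rw [show M 1 1 = algebraMap A B t - M 0 0 by rw [ht]; ring]; exact sub_mem (mA _) a00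
  have b11 : N 1 1 ∈ fr S := by
    rw [show N 1 1 = algebraMap A B t' - N 0 0 by rw [ht']; ring]; exact sub_mem (mA _) b00
  have a10 : M 1 0 ∈ fr S := fr_div a01 hb (by
    rw [show M 0 1 * M 1 0 = M 0 0 * M 1 1 - algebraMap A B n by rw [hn]; ring]
    exact sub_mem (mul_mem a00 a11) (mA _))
  have b10 : N 1 0 ∈ fr S := fr_div a01 hb (by
    rw [show M 0 1 * N 1 0 = algebraMap A B s - M 0 0 * N 0 0 - M 1 0 * N 0 1 - M 1 1 * N 1 1 by
      rw [hs]; ring]
    exact sub_mem (sub_mem (sub_mem (mA _) (mul_mem a00 b00)) (mul_mem a10 b01)) (mul_mem a11 b11))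
  refine ⟨S, Dim.noeth _, h1.trans (h2.trans (by gcongr)), fun i j => ?_, fun i j => ?_⟩ <;>
    fin_cases i <;> fin_cases j <;> assumption

/-- the dimension inequality -/
theorem dim3 [IsNoetherianRing B] [IsLocalRing B] (M N : Matrix (Fin 2) (Fin 2) B)
    (hD : (M * N - N * M).det ≠ 0) (R : Subring B) (hR : ∀ x ∈ R, ∃ u, algebraMap A B u = x)
    (h1 : M.trace ∈ R) (h2 : M.det ∈ R) (h3 : N.trace ∈ R) (h4 : N.det ∈ R)
    (h5 : (M * N).trace ∈ R) {ι : Type} [Fintype ι] (Z : ι → Matrix (Fin 2) (Fin 2) B)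
    (hZ : ∀ i, (Z i).trace ∈ R ∧ (Z i * M).trace ∈ R ∧ (Z i * N).trace ∈ R ∧
      (Z i * (M * N)).trace ∈ R)
    (hd : ∀ S : Subring B, (∀ u, algebraMap A B u ∈ S) → (∀ i a b, Z i a b ∈ S) →
      ∀ x, ∃ p ∈ S, x - p ∈ maximalIdeal B ^ 2) :
    ringKrullDim B ≤ ringKrullDim A + (3 : ℕ) := by
  classical
  obtain ⟨t, ht⟩ := hR _ h1
  obtain ⟨n, hn⟩ := hR _ h2
  obtain ⟨t', ht'⟩ := hR _ h3
  obtain ⟨n', hn'⟩ := hR _ h4
  obtain ⟨s, hs⟩ := hR _ h5
  obtain ⟨S, _, hS, hM, hN⟩ : ∃ S : Subalgebra A B, IsNoetherianRing S ∧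
      ringKrullDim S ≤ ringKrullDim A + (3 : ℕ) ∧ (∀ i j, M i j ∈ fr S) ∧ ∀ i j, N i j ∈ fr S := by
    by_cases hb : M 0 1 = 0
    · have hb' : N 0 1 ≠ 0 := fun h => hD (by
        simp only [Matrix.det_fin_two, Matrix.sub_apply, Matrix.mul_apply, Fin.sum_univ_two, hb, h]
        ring)
      obtain ⟨S, k1, k2, k3, k4⟩ := pair N M hb' t' n' t n s ht' hn' ht hn
        (hs.trans (Matrix.trace_mul_comm M N))
      exact ⟨S, k1, k2, k4, k3⟩
    · exact pair M N hb t n t' n' s ht hn ht' hn' hs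
  have mR : ∀ x ∈ R, x ∈ fr S := fun x hx => by
    obtain ⟨u, rfl⟩ := hR x hx
    exact fr_of (S.algebraMap_mem u)
  have hDm : (M * N - N * M).det ∈ fr S := by
    simp only [Matrix.det_fin_two, Matrix.sub_apply, Matrix.mul_apply, Fin.sum_univ_two]
    exact sub_mem (mul_mem (sub_mem (add_mem (mul_mem (hM _ _) (hN _ _)) (mul_mem (hM _ _) (hN _ _)))
      (add_mem (mul_mem (hN _ _) (hM _ _)) (mul_mem (hN _ _) (hM _ _))))
      (sub_mem (add_mem (mul_mem (hM _ _) (hN _ _)) (mul_mem (hM _ _) (hN _ _)))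
      (add_mem (mul_mem (hN _ _) (hM _ _)) (mul_mem (hN _ _) (hM _ _)))))
      (mul_mem (sub_mem (add_mem (mul_mem (hM _ _) (hN _ _)) (mul_mem (hM _ _) (hN _ _)))
      (add_mem (mul_mem (hN _ _) (hM _ _)) (mul_mem (hN _ _) (hM _ _))))
      (sub_mem (add_mem (mul_mem (hM _ _) (hN _ _)) (mul_mem (hM _ _) (hN _ _)))
      (add_mem (mul_mem (hN _ _) (hM _ _)) (mul_mem (hN _ _) (hM _ _)))))
  have hz : ∀ i a b, Z i a b ∈ fr S := fun i a b => by
    obtain ⟨k0, k1, k2, k3⟩ := hZ i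
    obtain ⟨e0, e1, e2, e3⟩ := cramer (fr S) ⟨_, hM 0 0⟩ ⟨_, hM 0 1⟩ ⟨_, hM 1 0⟩ ⟨_, hM 1 1⟩
      ⟨_, hN 0 0⟩ ⟨_, hN 0 1⟩ ⟨_, hN 1 0⟩ ⟨_, hN 1 1⟩ ⟨_, mR _ k0⟩ ⟨_, mR _ k1⟩ ⟨_, mR _ k2⟩
      ⟨_, mR _ k3⟩ (Z i 0 0) (Z i 0 1) (Z i 1 0) (Z i 1 1) (M * N - N * M).det
      (Matrix.trace_fin_two _)
      (by simp only [Matrix.trace_fin_two, Matrix.mul_apply, Fin.sum_univ_two])
      (by simp only [Matrix.trace_fin_two, Matrix.mul_apply, Fin.sum_univ_two])
      (by simp only [Matrix.trace_fin_two, Matrix.mul_apply, Fin.sum_univ_two])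
      (by simp only [Matrix.det_fin_two, Matrix.sub_apply, Matrix.mul_apply, Fin.sum_univ_two])
    fin_cases a <;> fin_cases b
    · exact fr_div hDm hD e0
    · exact fr_div hDm hD e1
    · exact fr_div hDm hD e2
    · exact fr_div hDm hD e3
  have mS : ∀ (T : Set B) x, x ∈ S → x ∈ Algebra.adjoin S T := fun T x hx =>
    Subalgebra.algebraMap_mem _ (⟨x, hx⟩ : S)
  have hle := Dim.dim_le (A := S) ∅
    (Finset.univ.image fun p : ι × Fin 2 × Fin 2 => Z p.1 p.2.1 p.2.2) (fun x hx => by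
      obtain ⟨p, -, rfl⟩ := Finset.mem_image.1 hx
      obtain ⟨u, k1, k2, k3⟩ := hz p.1 p.2.1 p.2.2
      exact ⟨u, mS _ _ k1, k2, mS _ _ k3⟩) fun x _ =>
      hd (Algebra.adjoin S _).toSubring (fun u => mS _ _ (S.algebraMap_mem u)) (fun i a b =>
        Algebra.subset_adjoin (Or.inl (Finset.mem_coe.2
          (Finset.mem_image.2 ⟨(i, a, b), Finset.mem_univ _, rfl⟩)))) x
  rw [Finset.card_empty, Nat.cast_zero, add_zero] at hle
  exact hle.trans hS

end

open MvPowerSeries in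
/-- **descent of dimensions**: the traces of the words in `M`, `N`, `Z i` lie in a subring `R` of
elements which come from `P₀` modulo `q` -/
theorem down3 {σ O P₀ : Type} [CommRing O] [IsLocalRing O] [IsNoetherianRing O] [Fintype σ]
    [CommRing P₀] [IsNoetherianRing P₀] (φ : P₀ →+* MvPowerSeries σ O)
    {q : Ideal (MvPowerSeries σ O)} (hq : q.IsPrime) (hC : ∀ o, ∃ u, φ u = MvPowerSeries.C o)
    (M N : Matrix (Fin 2) (Fin 2) (MvPowerSeries σ O)) (hD : (M * N - N * M).det ∉ q)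
    {ι : Type} [Fintype ι] (Z : ι → Matrix (Fin 2) (Fin 2) (MvPowerSeries σ O))
    (hX : ∀ s, ∃ i a b o, MvPowerSeries.X s = Z i a b - MvPowerSeries.C o)
    (R : Set (MvPowerSeries σ O)) (hR : ∀ x ∈ R, ∃ u, x - φ u ∈ q)
    (h1 : M.trace ∈ R) (h2 : M.det ∈ R) (h3 : N.trace ∈ R) (h4 : N.det ∈ R)
    (h5 : (M * N).trace ∈ R) (hZ : ∀ i, (Z i).trace ∈ R ∧ (Z i * M).trace ∈ R ∧
      (Z i * N).trace ∈ R ∧ (Z i * (M * N)).trace ∈ R) (k : ℕ)
    (hk : ((k + 3 : ℕ) : WithBot ℕ∞) ≤ ringKrullDim (MvPowerSeries σ O ⧸ q)) :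
    (k : WithBot ℕ∞) ≤ ringKrullDim (P₀ ⧸ q.comap φ) := by
  haveI : IsDomain (MvPowerSeries σ O ⧸ q) := Ideal.Quotient.isDomain q
  have hs : Function.Surjective (Ideal.Quotient.mk q) := Ideal.Quotient.mk_surjective
  haveI : IsLocalRing (MvPowerSeries σ O ⧸ q) := .of_surjective' _ hs
  have hm : (maximalIdeal _).map (Ideal.Quotient.mk q) = maximalIdeal (MvPowerSeries σ O ⧸ q) :=
    map_maximalIdeal_of_surjective _ hs
  letI : Algebra (P₀ ⧸ q.comap φ) (MvPowerSeries σ O ⧸ q) :=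
    (Ideal.quotientMap q φ le_rfl).toAlgebra
  have hA : ∀ u, algebraMap (P₀ ⧸ q.comap φ) (MvPowerSeries σ O ⧸ q) (Ideal.Quotient.mk _ u) =
      Ideal.Quotient.mk q (φ u) := fun _ => rfl
  let μ := (Ideal.Quotient.mk q).mapMatrix (m := Fin 2)
  have mr : ∀ x ∈ R, Ideal.Quotient.mk q x ∈
      (algebraMap (P₀ ⧸ q.comap φ) (MvPowerSeries σ O ⧸ q)).range := fun x hx => by
    obtain ⟨u, hu⟩ := hR x hx
    exact ⟨Ideal.Quotient.mk _ u, (hA u).trans (Ideal.Quotient.eq.2 hu).symm⟩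
  have tr : ∀ Y : Matrix (Fin 2) (Fin 2) (MvPowerSeries σ O), Y.trace ∈ R → (μ Y).trace ∈
      (algebraMap (P₀ ⧸ q.comap φ) (MvPowerSeries σ O ⧸ q)).range := fun Y hY => by
    have := mr _ hY
    rwa [Matrix.trace_fin_two, map_add, ← Matrix.map_apply (f := Ideal.Quotient.mk q),
      ← Matrix.map_apply (f := Ideal.Quotient.mk q), ← Matrix.trace_fin_two] at this
  have hle := dim3 (A := P₀ ⧸ q.comap φ) (μ M) (μ N) (by
      rw [← map_mul, ← map_mul, ← map_sub, ← RingHom.map_det]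
      exact mt Ideal.Quotient.eq_zero_iff_mem.1 hD) _ (fun _ h => h) (tr _ h1)
    (by rw [← RingHom.map_det]; exact mr _ h2) (tr _ h3) (by rw [← RingHom.map_det]; exact mr _ h4)
    (by rw [← map_mul]; exact tr _ h5) (fun i => μ (Z i)) (fun i => by
      rw [← map_mul, ← map_mul, ← map_mul, ← map_mul]
      exact ⟨tr _ (hZ i).1, tr _ (hZ i).2.1, tr _ (hZ i).2.2.1, tr _ (hZ i).2.2.2⟩)
    fun S k1 k2 x => by
      obtain ⟨f, rfl⟩ := hs x
      have kC : ∀ o, MvPowerSeries.C o ∈ S.comap (Ideal.Quotient.mk q) := fun o => by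
        obtain ⟨u, hu⟩ := hC o
        rw [Subring.mem_comap, ← hu, ← hA]
        exact k1 _
      obtain ⟨p, hp, h⟩ := Tor.lin (S.comap (Ideal.Quotient.mk q)) kC (fun s => by
        obtain ⟨i, a, b, o, e⟩ := hX s
        rw [e]
        exact sub_mem (k2 i a b) (kC o)) f
      exact ⟨_, hp, by rw [← map_sub, ← hm, ← Ideal.map_pow]; exact Ideal.mem_map_of_mem _ h⟩
  have h := hk.trans hle
  generalize ringKrullDim (P₀ ⧸ q.comap φ) = x at h ⊢
  induction x using WithBot.recBotCoe with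
  | bot => simp at h
  | coe x =>
    induction x using ENat.recTopCoe with
    | top => exact le_top
    | coe x =>
      have h' : ((k + 3 : ℕ) : WithBot ℕ∞) ≤ ((x + 3 : ℕ) : WithBot ℕ∞) := by
        rw [Nat.cast_add x 3]; exact h
      have : k + 3 ≤ x + 3 := by exact_mod_cast h'
      exact_mod_cast (by omega : k ≤ x)

end Vale.Agent.P022S.Geo
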