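import Vale.Agent.P022S.Koch.Gen
import Vale.Agent.P022S.Mod.Gw

/-!
# P022S: minimal generators inside a given family of generators
-/

set_option linter.all false

noncomputable section

namespace Vale.Agent.P022S.Koch

open NumberField
open Vale.Agent.P022 Vale.Agent.P022.H443
open Vale.Agent.P027M.S (Inert mx)
open Vale.Agent.P022E.Loc (Tm)
open Vale.Agent.P022E.GW
open Vale.Agent.P022E.GW.Kc (kq kq_add kq_opn rt)

/-- extension of a biorthogonal system -/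
theorem extIn {G F κ : Type} [Field F] [Fintype κ] [DecidableEq κ] (V : Submodule F (G → F))
    [Finite V] (γ0 : κ → G) (χ0 : κ → G → F) (h0 : ∀ i, χ0 i ∈ V)
    (d0 : ∀ i j, χ0 i (γ0 j) = if i = j then 1 else 0) (W : Set G)
    (hW : ∀ x ∈ V, (∀ g ∈ W, x g = 0) → x = 0) (w0 : ∀ k, γ0 k ∈ W) :
    ∃ (ι : Type) (_ : Fintype ι) (_ : DecidableEq ι) (e : κ → ι) (γ : ι → G) (χ : ι → G → F),
      Function.Injective e ∧ (∀ k, γ (e k) = γ0 k) ∧ (∀ i, χ i ∈ V) ∧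
      (∀ i j, χ i (γ j) = if i = j then 1 else 0) ∧ (∀ x ∈ V, (∀ i, x (γ i) = 0) → x = 0) ∧
      ∀ i, γ i ∈ W := by
  classical
  let R : ℕ → Prop := fun n => ∃ (ι : Type) (_ : Fintype ι) (_ : DecidableEq ι) (e : κ → ι)
    (γ : ι → G) (χ : ι → G → F), Fintype.card ι = n ∧ Function.Injective e ∧
      (∀ k, γ (e k) = γ0 k) ∧ (∀ i, χ i ∈ V) ∧ (∀ i j, χ i (γ j) = if i = j then 1 else 0) ∧
      ∀ i, γ i ∈ W
  have bd : ∀ n, R n → n ≤ Nat.card V := by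
    rintro n ⟨ι, _, _, e, γ, χ, rfl, -, -, a, b, -⟩
    rw [← Nat.card_eq_fintype_card]
    refine Nat.card_le_card_of_injective (fun i => (⟨χ i, a i⟩ : V)) fun i j h => ?_
    by_contra n
    have := congrFun (congrArg Subtype.val h) (γ j)
    simp only [b, if_neg n, if_pos rfl] at this
    exact zero_ne_one this
  have r0 : R (Fintype.card κ) :=
    ⟨κ, _, _, id, γ0, χ0, rfl, fun _ _ h => h, fun _ => rfl, h0, d0, w0⟩
  obtain ⟨ι, j1, j2, e, γ, χ, hc, a1, a2, a3, a4, a5⟩ : R (Nat.findGreatest R (Nat.card V)) :=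
    Nat.findGreatest_spec (bd _ r0) r0
  refine ⟨ι, j1, j2, e, γ, χ, a1, a2, a3, a4, fun x hx h => ?_, a5⟩
  by_contra hn
  obtain ⟨g, hg, hg'⟩ : ∃ g ∈ W, x g ≠ 0 := by
    by_contra k
    exact hn (hW x hx fun g hg => by_contra fun e => k ⟨g, hg, e⟩)
  have r : R (Nat.findGreatest R (Nat.card V) + 1) := by
    refine ⟨Option ι, inferInstance, inferInstance, some ∘ e, fun o => o.elim g γ,
      fun o => o.elim ((x g)⁻¹ • x) fun i => χ i - (χ i g * (x g)⁻¹) • x, by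
        rw [Fintype.card_option, hc], (Option.some_injective _).comp a1, a2, ?_, ?_, ?_⟩
    · rintro (_ | i)
      exacts [V.smul_mem _ hx, V.sub_mem (a3 i) (V.smul_mem _ hx)]
    · rintro (_ | i) (_ | j)
      · simp [hg']
      · simp [h]
      · simp [hg']
      · simp [h, a4]
    · rintro (_ | i)
      exacts [hg, a5 i]
  exact Nat.findGreatest_is_greatest (Nat.lt_succ_self _) (bd _ r) r

/-- **minimal generators**: they contain the tame generators, the conjugation, and one more -/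
theorem ex_dbIn {T C : Finset ℕ} (h2 : 2 ∈ T) (hC : C ⊆ T) (c2 : 2 ∉ C) (P : ℕ → Ideal (𝓞 Qb))
    (τ : ℕ → GQ) (hP : ∀ l ∈ C, Ov l (P l)) (hτ : ∀ l ∈ C, Gn l (P l) (τ l)) {c : GQ}
    (hc : IsConj c) (W : Set GQ) (hW : ∀ x ∈ Qc T, (∀ g ∈ W, x g = 0) → x = 0) (wc : c ∈ W)
    (wτ : ∀ l ∈ C, τ l ∈ W) :
    ∃ (ι : Type) (_ : Fintype ι) (_ : DecidableEq ι) (γ : ι → GQ) (χ : ι → GQ → ZMod 2)
      (i2 ic : ι) (iτ : C → ι), Db T γ χ ∧ γ ic = c ∧ (∀ l, γ (iτ l) = τ l) ∧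
      Function.Injective (Sum.elim ![i2, ic] iτ) ∧ ∀ i, γ i ∈ W := by
  classical
  haveI := qc_fin T
  have n2 : ∀ l : C, (l : ℕ) ≠ 2 := fun l e => c2 (e ▸ l.2)
  obtain ⟨ι, j1, j2, e, γ, χ, a1, a2, a3, a4, a5, a6⟩ := extIn (κ := Option C) (Qc T)
    (fun o => o.elim c fun l => τ l) (fun o => o.elim (kq (-1)) fun l => kq ((l : ℕ) : Qb)) (by
      rintro (_ | l)
      exacts [km_mem h2, kq_mem h2 (hP l l.2).1 (hC l.2)]) (by
      rintro (_ | l) (_ | l')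
      · exact km_c hc
      · exact P022G.Obs.Sc2.m1 (hP _ l'.2) (n2 l') (hτ _ l'.2).1
      · exact kq_c hc _ (hP l l.2).1.ne_zero
      · by_cases h : l = l'
        · subst h
          rw [if_pos rfl]
          exact ((Tg.gn_iff (hP _ l.2)).1 (hτ _ l.2)).2
        · rw [if_neg fun k => h (Option.some_injective _ k)]
          exact kq_ine (hP _ l'.2) (n2 l') (hP l l.2).1 (fun k => h (Subtype.ext k.symm))
            (hτ _ l'.2).1) W hW (by
      rintro (_ | l)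
      exacts [wc, wτ l l.2])
  have ns : ∃ i, i ∉ Set.range e := by
    by_contra hn
    have hs : ∀ i, i ∈ Set.range e := fun i => by_contra fun k => hn ⟨i, k⟩
    have z := a5 _ (kq_mem h2 Nat.prime_two h2) fun i => by
      obtain ⟨k, rfl⟩ := hs i
      rw [a2]
      rcases k with _ | l
      · exact kq_c hc 2 two_ne_zero
      · exact kq_ine (hP _ l.2) (n2 l) Nat.prime_two (n2 l) (hτ _ l.2).1
    have o : Ov 2 (P022D.Loc2.PP 2) :=
      ⟨Nat.prime_two, P022D.Loc2.PP_prime 2, P022D.Loc2.p_mem_PP 2⟩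
    obtain ⟨t, ht⟩ := Tg.ex_gn' o
    have := ((Tg.gn_iff o).1 ht).2
    rw [z] at this
    exact zero_ne_one this
  obtain ⟨i2, hi⟩ := ns
  refine ⟨ι, j1, j2, γ, χ, i2, e none, fun l => e (some l), ⟨a3, a4, a5⟩, a2 none,
    fun l => a2 (some l), ?_, a6⟩
  rintro (x | x) (y | y) h
  · fin_cases x <;> fin_cases y
    · rfl
    · exact absurd ⟨_, h.symm⟩ hi
    · exact absurd ⟨_, h⟩ hi
    · rfl
  · fin_cases x
    · exact absurd ⟨_, h.symm⟩ hi
    · exact absurd (a1 h) (by simp)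
  · fin_cases y
    · exact absurd ⟨_, h⟩ hi
    · exact absurd (a1 h) (by simp)
  · rw [Option.some_injective _ (a1 h)]

/-- generators separate the quadratic characters -/
theorem sep_of {T : Finset ℕ} {κ : Type} {γ : κ → GQ}
    (h : ∀ (Γ : Type) [Group Γ] [Finite Γ] (f : GQ →* Γ), IsOpen {g : GQ | f g = 1} →
      (∀ g, ∃ k : ℕ, f g ^ 2 ^ k = 1) →
      (∀ l : ℕ, l.Prime → l ∉ T → ∀ P : Ideal (𝓞 Qb), P.IsPrime → (l : 𝓞 Qb) ∈ P →
        ∀ s, Inert P s → f s = 1) →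
      ∀ g, f g ∈ Subgroup.closure (Set.range fun i => f (γ i))) :
    ∀ x ∈ Qc T, (∀ g ∈ Set.range γ, x g = 0) → x = 0 := by
  rintro x ⟨x1, ⟨U, hU, x2⟩, x3⟩ h0
  let f : GQ →* Multiplicative (ZMod 2) := MonoidHom.mk' (fun g => Multiplicative.ofAdd (x g))
    fun g k => congrArg Multiplicative.ofAdd (x1 g k)
  have s1 : ∀ a : Multiplicative (ZMod 2), a ^ 2 ^ 1 = 1 := by decide
  funext g
  have k := h _ f (Subgroup.isOpen_mono (H₁ := U) (H₂ := f.ker)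
    (fun s hs => congrArg Multiplicative.ofAdd (x2 s hs)) hU) (fun g => ⟨1, s1 _⟩)
    (fun l hl hT P p1 p2 s hs => congrArg Multiplicative.ofAdd (x3 l hT P ⟨hl, p1, p2⟩ s hs)) g
  have e : Subgroup.closure (Set.range fun i => f (γ i)) ≤ ⊥ := by
    rw [Subgroup.closure_le]
    rintro _ ⟨i, rfl⟩
    exact congrArg Multiplicative.ofAdd (h0 _ ⟨i, rfl⟩)
  exact congrArg Multiplicative.toAdd (Subgroup.mem_bot.1 (e k))

/-- **minimal generators among given generators** -/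
theorem ex_dbG {T C : Finset ℕ} (h2 : 2 ∈ T) (hC : C ⊆ T) (c2 : 2 ∉ C) (P : ℕ → Ideal (𝓞 Qb))
    (τ : ℕ → GQ) (hP : ∀ l ∈ C, Ov l (P l)) (hτ : ∀ l ∈ C, Gn l (P l) (τ l)) {c : GQ}
    (hc : IsConj c) {κ : Type} {γ' : κ → GQ} {T' : Finset ℕ} (hG : Mod.Gen2 T' ∅ γ')
    (hT : ∀ l : ℕ, l.Prime → l ∈ T → l ∈ T') (wc : ∃ k, γ' k = c) (wτ : ∀ l ∈ C, ∃ k, γ' k = τ l) :
    ∃ (ι : Type) (_ : Fintype ι) (_ : DecidableEq ι) (e : ι → κ) (χ : ι → GQ → ZMod 2)
      (i2 ic : ι) (iτ : C → ι), Db T (fun i => γ' (e i)) χ ∧ γ' (e ic) = c ∧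
      (∀ l, γ' (e (iτ l)) = τ l) ∧ Function.Injective (Sum.elim ![i2, ic] iτ) := by
  obtain ⟨ι, j1, j2, γ, χ, i2, ic, iτ, a1, a2, a3, a4, a5⟩ := ex_dbIn h2 hC c2 P τ hP hτ hc
    (Set.range γ') (sep_of fun Γ _ _ f ho ht hu => hG Γ f ho ht fun l hl a _ =>
      hu l hl fun e => a (hT l hl e)) wc wτ
  choose e he using a5
  obtain rfl : γ = fun i => γ' (e i) := funext fun i => (he i).symm
  exact ⟨ι, j1, j2, e, χ, i2, ic, iτ, a1, a2, a3, a4⟩

end Vale.Agent.P022S.Koch
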