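import Vale.Agent.P022S.Geo.Pt
import Vale.Agent.P022S.Utr
import Vale.Agent.P022S.Nice0

/-!
# P022S: the map from the ring of symbols to the framed ring of the minimal generators
-/

set_option linter.all false

noncomputable section

namespace Vale.Agent.P022S.Geo

open NumberField IsLocalRing MvPowerSeries
open Vale.Agent.P022
open Vale.Agent.P027M.S (Inert mx)
open Vale.Agent.P022D.Sel (M2)
open Vale.Agent.P022D.CA Vale.Agent.P022G Vale.Agent.P022G.Trc Vale.Agent.P022G.Chain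
open Vale.Agent.P022G.Pres (PP Ix Dt Jac Un Adm pm pm_apply pm_one)
open Vale.Agent.P022S.Koch

/-- a matrix which is orthogonal to an irreducible pair vanishes -/
theorem orth {V : Type} [CommRing V] [IsDomain V] {M N Y : M2 V} (hD : (M * N - N * M).det ≠ 0)
    (h0 : Y.trace = 0) (h1 : (M * Y).trace = 0) (h2 : (N * Y).trace = 0)
    (h3 : (M * N * Y).trace = 0) : Y = 0 := by
  refine Matrix.ext fun a b => (mul_eq_zero.1 ?_).resolve_left hD
  obtain ⟨c, hc⟩ := Nice.cram M N (Matrix.single b a 1)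
  have := congrArg (fun Z => (Z * Y).trace) hc
  simp only [add_mul, smul_mul_assoc, one_mul, Matrix.trace_add, Matrix.trace_smul, h0, h1, h2, h3,
    smul_zero, add_zero, smul_eq_mul, mul_zero] at this
  rwa [Matrix.trace_single_mul, one_smul] at this

variable {O F ι : Type} [CommRing O] [IsLocalRing O] [Field F] {S : Dt O F ι}

theorem wz_res (hS : S.Ok) (h1 : ∀ g, S.rb g = 1) (w : FreeGroup ι) : (wz hS w).map S.π0 = 1 :=
  DFunLike.congr_fun (FreeGroup.ext_hom (pm S.π0 (wz hS)) 1 fun i => by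
    rw [pm_apply, wz_of, hS.Z, mx, h1]; rfl) w

theorem wd_res (hS : S.Ok) (h1 : ∀ g, S.rb g = 1) {M : M2 (PP O ι)} (hM : M ∈ Wd hS) :
    M.map S.π0 = 1 := by
  obtain ⟨w, hw⟩ := hM 1
  rw [← wz_res hS h1 w]
  refine Matrix.ext fun a b => sub_eq_zero.1 ?_
  have := Ideal.Quotient.eq.1 (congrFun (congrFun hw a) b)
  rw [pow_one, ← hS.max, map_sub] at this
  exact this

theorem wd_unit (hS : S.Ok) (h1 : ∀ g, S.rb g = 1) {M : M2 (PP O ι)} (hM : M ∈ Wd hS) :
    IsUnit M := by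
  rw [Matrix.isUnit_iff_isUnit_det, ← notMem_maximalIdeal, ← hS.max, RingHom.map_det,
    RingHom.mapMatrix_apply, wd_res hS h1 hM, Matrix.det_one]
  exact one_ne_zero

theorem lm_inv {hS : S.Ok} {g : GQ} {M N : M2 (PP O ι)} (h : Lm hS g M) (e : M * N = 1) :
    Lm hS g⁻¹ N := by
  refine ⟨fun k => ?_, fun A _ φ ρ k a => ?_⟩
  · obtain ⟨w, hw⟩ := h.wd k
    refine ⟨w⁻¹, left_inv_eq_right_inv (a := M.map (Ideal.Quotient.mk _)) ?_ ?_⟩
    · rw [← Matrix.map_mul, mul_eq_one_comm.1 e, Matrix.map_one _ (map_zero _) (map_one _)]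
    · rw [hw, ← Matrix.map_mul, ← map_mul, mul_inv_cancel, map_one,
        Matrix.map_one _ (map_zero _) (map_one _)]
  · refine left_inv_eq_right_inv (a := ρ g) ?_ ?_
    · rw [← map_mul, inv_mul_cancel, map_one]
    · rw [h.ev A φ ρ k a, ← Matrix.map_mul, e, Matrix.map_one _ (map_zero _) (map_one _)]

/-- the map from the ring of symbols -/
structure Ph (hS : S.Ok) {n : ℕ} (γ : Fin n → GQ) (r : GQ →* M2 O) (e : ι → Fin n)
    (R : FreeGroup (Fin n) →* M2 (PP O ι))
    (φ : MvPowerSeries (Finset (Fin n) ⊕ Fin n) O →+* PP O ι) : Prop where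
  c : ∀ o, φ (C o) = C o
  loc : ∀ u ∈ maximalIdeal (MvPowerSeries (Finset (Fin n) ⊕ Fin n) O), φ u ∈ maximalIdeal (PP O ι)
  t : ∀ s, φ (X (Sum.inl s)) = (R (Word.wd FreeGroup.of s)).trace - C (r (Word.wd γ s)).trace
  d : ∀ i, φ (X (Sum.inr i)) = (R (FreeGroup.of i)).det - C (r (γ i)).det
  lm : ∀ w, Lm hS (FreeGroup.lift γ w) (R w)
  z : ∀ i, R (FreeGroup.of (e i)) = S.Z i

theorem exists_ph [IsNoetherianRing O] [IsAdicComplete (maximalIdeal O) O] [Finite F] [CharP F 2]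
    [Fintype ι] (hS : S.Ok) (h1 : ∀ g, S.rb g = 1) {n : ℕ} (γ : Fin n → GQ) (r : GQ →* M2 O)
    (hr : ∀ g, (r g).map S.red = 1) (e : ι → Fin n) (he : Function.Injective e)
    (hγ : ∀ i, γ (e i) = S.gam i) : ∃ R φ, Ph hS γ r e R φ := by
  have h : ∀ k, ∃ M, Lm hS (γ k) M ∧ ∀ i, e i = k → M = S.Z i := fun k => by
    by_cases c : ∃ i, e i = k
    · obtain ⟨i, rfl⟩ := c
      exact ⟨_, hγ i ▸ lm_gen hS i, fun j hj => by rw [he hj]⟩
    · obtain ⟨M, hM⟩ := ex_lm hS h1 (γ k)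
      exact ⟨M, hM, fun i hi => absurd ⟨i, hi⟩ c⟩
  choose M hM hM' using h
  have hu : ∀ k, IsUnit (M k) := fun k => wd_unit hS h1 (hM k).wd
  have lm : ∀ w, Lm hS (FreeGroup.lift γ w) (Kd.fr M hu w) := fun w => by
    induction w using FreeGroup.induction_on with
    | C1 => rw [map_one, map_one]; simpa using lm_word hS 1
    | of k => rw [FreeGroup.lift_apply_of, Kd.fr_of]; exact hM k
    | inv_of k ih => rw [map_inv]; exact lm_inv ih (by rw [← map_mul, mul_inv_cancel, map_one])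
    | mul x y a b => rw [map_mul, map_mul]; exact a.mul b
  have pc : ∀ o, S.π0 (C o) = S.red o := fun o => by simp [Dt.π0]
  have hx : ∀ s : Finset (Fin n) ⊕ Fin n, (Sum.elim
      (fun s => (Kd.fr M hu (Word.wd FreeGroup.of s)).trace - C (r (Word.wd γ s)).trace)
      (fun i => (Kd.fr M hu (FreeGroup.of i)).det - C (r (γ i)).det) s : PP O ι) ∈
        maximalIdeal (PP O ι) := by
    rintro (s | i) <;> refine hS.max.1 ?_
    · rw [Sum.elim_inl, map_sub, pc, AddMonoidHom.map_trace, AddMonoidHom.map_trace,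
        wd_res hS h1 (lm _).wd, hr, sub_self]
    · rw [Sum.elim_inr, map_sub, pc, RingHom.map_det, RingHom.map_det, RingHom.mapMatrix_apply,
        RingHom.mapMatrix_apply, wd_res hS h1 (lm _).wd, hr, sub_self]
  haveI := Cpl.isAdicCompleteV (σ := Ix ι) (V := O) inferInstance
  obtain ⟨φ, c1, c2⟩ := Conn.exists_ev (maximalIdeal (PP O ι)) C _ hx
  exact ⟨_, φ, c1, Tor.loc_of (fun c hc => by rw [c1, Cpl.mem_max_iff, constantCoeff_C]; exact hc)
    (fun s => by rw [c2]; exact hx s), fun s => c2 _, fun i => c2 _, lm,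
    fun i => by rw [Kd.fr_of, hM' _ i rfl]⟩

section
variable {hS : S.Ok} {n : ℕ} {γ : Fin n → GQ} {r : GQ →* M2 O} {e : ι → Fin n}
  {R : FreeGroup (Fin n) →* M2 (PP O ι)}
  {φ : MvPowerSeries (Finset (Fin n) ⊕ Fin n) O →+* PP O ι} (H : Ph hS γ r e R φ)
include H

theorem Ph.ts (s : Finset (Fin n)) :
    φ (C (r (Word.wd γ s)).trace + X (Sum.inl s)) = (R (Word.wd FreeGroup.of s)).trace := by
  rw [map_add, H.c, H.t, add_sub_cancel]

theorem Ph.ds (i : Fin n) : φ (C (r (γ i)).det + X (Sum.inr i)) = (R (FreeGroup.of i)).det := by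
  rw [map_add, H.c, H.d, add_sub_cancel]

theorem Ph.mem (w : FreeGroup (Fin n)) : (R w).trace ∈ φ.range ∧ (R w).det ∈ φ.range :=
  Lift.all_mem FreeGroup.of (FreeGroup.closure_range_of _) φ R (fun s => ⟨_, H.ts s⟩) (fun i => by
    have : IsUnit (C (r (γ i)).det + X (Sum.inr i) :
        MvPowerSeries (Finset (Fin n) ⊕ Fin n) O) := by
      rw [isUnit_iff_constantCoeff, map_add, constantCoeff_C, constantCoeff_X, add_zero,
        ← Matrix.isUnit_iff_isUnit_det]
      exact (Group.isUnit _).map r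
    exact ⟨this.unit, H.ds i⟩) w

theorem Ph.wz (w : FreeGroup ι) : wz hS w = R (FreeGroup.map e w) :=
  DFunLike.congr_fun (FreeGroup.ext_hom (Koch.wz hS) (R.comp (FreeGroup.map e)) fun i => by
    rw [wz_of, MonoidHom.comp_apply, FreeGroup.map.of, H.z]) w

theorem Ph.list (l : List ι) : ∃ u, φ u = (l.map S.Z).prod.trace := by
  obtain ⟨u, hu⟩ := (H.mem (l.map fun i => FreeGroup.of (e i)).prod).1
  refine ⟨u, ?_⟩
  rw [hu, map_list_prod, List.map_map]
  exact congrArg (fun f => (l.map f).prod.trace) (funext H.z)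

theorem Ph.var (s : Finset (Fin n) ⊕ Fin n) :
    ∃ M ∈ Wd hS, ∃ o, φ (X s) = M.trace - C o ∨ φ (X s) = M.det - C o := by
  rcases s with s | i
  · exact ⟨_, (H.lm _).wd, _, Or.inl (H.t s)⟩
  · exact ⟨_, (H.lm _).wd, _, Or.inr (H.d i)⟩

end

end Vale.Agent.P022S.Geo
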