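import Vale.Agent.P022S.Geo.Cc
import Vale.Agent.P022S.Koch.Lim
import Vale.Agent.P022S.Koch.Gen
import Vale.Agent.P022S.LiftM
import Vale.Agent.P022G.Tr.Frp

/-!
# P022S: points of the framed ring
-/

set_option linter.all false

noncomputable section

namespace Vale.Agent.P022S.Geo

open NumberField IsLocalRing MvPowerSeries Filter
open Vale.Agent.P022
open Vale.Agent.P027M.S (Inert mx)
open Vale.Agent.P022D.Sel (M2)
open Vale.Agent.P022D.PA (Base)
open Vale.Agent.P022D.CA Vale.Agent.P022G Vale.Agent.P022G.Trc Vale.Agent.P022G.Chain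
open Vale.Agent.P022G.Pres (PP Ix Dt Jac Un Adm pm pm_apply pm_one)
open Vale.Agent.P022S.Koch

theorem krull {V : Type} [CommRing V] [IsLocalRing V] [IsNoetherianRing V] {x y : V}
    (h : ∀ N : ℕ, x - y ∈ maximalIdeal V ^ N) : x = y := by
  rw [← sub_eq_zero, ← Ideal.mem_bot,
    ← Ideal.iInf_pow_eq_bot_of_isLocalRing (maximalIdeal V) (maximalIdeal.isMaximal V).ne_top]
  exact Ideal.mem_iInf.2 h

/-- two local maps which agree on approximations -/
theorem agree {A P V : Type} [CommRing A] [Base A] [CommRing P] [IsLocalRing P]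
    [IsNoetherianRing P] [CommRing V] [IsLocalRing V] [IsNoetherianRing V] {φ : A →+* P}
    (hφ : ∀ x ∈ maximalIdeal A, φ x ∈ maximalIdeal P) {f g : A →+* V}
    (hf : ∀ x ∈ maximalIdeal A, f x ∈ maximalIdeal V)
    (hg : ∀ x ∈ maximalIdeal A, g x ∈ maximalIdeal V) (kf : ∀ x, φ x = 0 → f x = 0)
    (kg : ∀ x, φ x = 0 → g x = 0) {u : A}
    (h : ∀ k : ℕ, ∃ v, f v = g v ∧ φ v - φ u ∈ maximalIdeal P ^ k) : f u = g u := by
  choose v h1 h2 using h
  obtain ⟨b, hb⟩ := P022D.PA.lim A (hyperfilter ℕ) v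
  have e1 : φ b = φ u := krull fun j => by
    obtain ⟨n, k1, k2⟩ := ((_root_.P022G.Lk.cv_map φ hφ _ hb j).and
      (Nat.hyperfilter_le_atTop (eventually_ge_atTop j))).exists
    have : φ (v n) - φ u - (φ (v n) - φ b) ∈ _ := sub_mem (Ideal.pow_le_pow_right k2 (h2 n)) k1
    rwa [sub_sub_sub_cancel_left] at this
  have e2 : f b = g b := krull fun j => by
    obtain ⟨n, k1, k2⟩ := ((_root_.P022G.Lk.cv_map f hf _ hb j).and
      (_root_.P022G.Lk.cv_map g hg _ hb j)).exists
    have : g (v n) - g b - (f (v n) - f b) ∈ _ := sub_mem k2 k1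
    rwa [h1 n, sub_sub_sub_cancel_left] at this
  have e3 : φ (u - b) = 0 := by rw [map_sub, e1, sub_self]
  have e4 := kf _ e3
  have e5 := kg _ e3
  rw [map_sub, sub_eq_zero] at e4 e5
  rw [e4, e5, e2]

variable {O F ι : Type} [CommRing O] [IsLocalRing O] [IsNoetherianRing O]
  [IsAdicComplete (maximalIdeal O) O] [Field F] [Finite F] [CharP F 2] [Fintype ι] {S : Dt O F ι}

/-- **the point of a representation** -/
theorem pt (hS : S.Ok) (h1 : ∀ g, S.rb g = 1) (h2 : 2 ∈ S.T) (hc : ∀ i, S.c0 i = 1)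
    (hγ : ∀ x ∈ Qc S.T, (∀ i, x (S.gam i) = 0) → x = 0) {V : Type} [CommRing V] [IsLocalRing V]
    [IsNoetherianRing V] [IsAdicComplete (maximalIdeal V) V] [Finite (ResidueField V)]
    (j : O →+* V) (ρ : GQ →* M2 V) (hj : ∀ o ∈ maximalIdeal O, j o ∈ maximalIdeal V)
    (hρ : ∀ g a b, (ρ g - 1 : M2 V) a b ∈ maximalIdeal V) (hdet : ∀ g, (ρ g).det = j (S.δ g))
    (hop : ∀ N : ℕ, IsOpen {g | (ρ g).map (Ideal.Quotient.mk (maximalIdeal V ^ N)) = 1})
    (hun : Un S.T ρ) : ∃ θ : PP O ι →+* V, (∀ o, θ (C o) = j o) ∧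
      (∀ f ∈ maximalIdeal (PP O ι), θ f ∈ maximalIdeal V) ∧ Jac S ≤ RingHom.ker θ ∧
      ∀ g M, Lm hS g M → M.map θ = ρ g := by
  obtain ⟨θ, hC, hX⟩ := Conn.exists_ev (ι := Ix ι) (maximalIdeal V) j
    (fun s => (ρ (S.gam s.1) - 1 : M2 V) s.2.1 s.2.2) fun s => hρ _ _ _
  have hz : ∀ i, (S.Z i).map θ = ρ (S.gam i) := fun i => Matrix.ext fun a b => by
    show θ (C (S.c0 i a b) + X (i, a, b)) = _
    rw [map_add, hC, hX, hc, Matrix.sub_apply, Matrix.one_apply, Matrix.one_apply, apply_ite j,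
      map_one, map_zero, add_sub_cancel]
  have hloc : ∀ f ∈ maximalIdeal (PP O ι), θ f ∈ maximalIdeal V :=
    Tor.loc_of (fun c h => by rw [hC]; exact hj c h) fun s => by rw [hX]; exact hρ _ _ _
  have hk : ∀ N, maximalIdeal (PP O ι) ^ N ≤
      RingHom.ker ((Ideal.Quotient.mk (maximalIdeal V ^ N)).comp θ) := fun N f hf =>
    Ideal.Quotient.eq_zero_iff_mem.2 (Tor.map_pow_mem hloc N hf)
  have k2 : (2 : V) ∈ maximalIdeal V := by
    rw [← map_ofNat j 2]
    exact hj _ ((hS.ker 2).1 (by rw [map_ofNat]; exact CharTwo.two_eq_zero))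
  have hA : ∀ N, Adm S ((Ideal.Quotient.mk (maximalIdeal V ^ N)).comp θ)
      (pm (Ideal.Quotient.mk (maximalIdeal V ^ N)) ρ) := fun N => by
    have hfin : Finite (V ⧸ maximalIdeal V ^ N) :=
      haveI : Finite (V ⧸ maximalIdeal V) := inferInstanceAs (Finite (ResidueField V))
      Ideal.finite_quotient_pow (IsNoetherian.noetherian _) N
    have hgen : ∀ i, pm (Ideal.Quotient.mk (maximalIdeal V ^ N)) ρ (S.gam i) =
        (S.Z i).map ((Ideal.Quotient.mk (maximalIdeal V ^ N)).comp θ) := fun i => by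
      rw [pm_apply, ← hz, Matrix.map_map]; rfl
    have hu : Un S.T (pm (Ideal.Quotient.mk (maximalIdeal V ^ N)) ρ) :=
      fun l hl Q hQ g hg => pm_one _ _ (hun l hl Q hQ g hg)
    refine ⟨hgen, fun g => ?_, hop N, hu, fun g a b => ?_⟩
    · rw [pm_apply, ← RingHom.mapMatrix_apply, ← RingHom.map_det, hdet, RingHom.comp_apply, hC]
    · let f : GQ →* (M2 (V ⧸ maximalIdeal V ^ N))ˣ × GL (Fin 2) F :=
        (pm (Ideal.Quotient.mk (maximalIdeal V ^ N)) ρ).toHomUnits.prod S.rb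
      have hf : ∀ g, f g = 1 ↔ pm (Ideal.Quotient.mk (maximalIdeal V ^ N)) ρ g = 1 := fun g => by
        rw [Prod.ext_iff, Units.ext_iff]
        exact and_iff_left (h1 g)
      have h := gen2 h2 hγ ∅ S.gam (fun i => ⟨i, rfl⟩) (fun q hq => absurd hq (by simp)) _ f
        (by rw [show {g : GQ | f g = 1} = _ from Set.ext hf]; exact hop N)
        (fun g => ⟨N, by
          rw [← map_pow, hf, pm_apply, map_pow]
          ext a b
          have k5 := Ideal.pow_le_pow_right (Nat.le_succ N) (two_pow _ k2 (ρ g) (hρ g) N a b)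
          rw [Matrix.sub_apply, ← Ideal.Quotient.eq] at k5
          rw [Matrix.map_apply, k5, Matrix.one_apply, Matrix.one_apply, apply_ite
            (Ideal.Quotient.mk _), map_one, map_zero]⟩)
        (fun l hl hT _ Q hQ hlQ s hs => (hf s).2 (hu l hT Q ⟨hl, hQ, hlQ⟩ s hs)) g
      rw [← Subgroup.mem_toSubmonoid, Subgroup.closure_toSubmonoid_of_finite] at h
      obtain ⟨p, p1, p2⟩ := (Submonoid.closure_le.2 (by
        rintro _ ⟨i, rfl⟩
        exact ⟨S.Z i, (hgen i).symm, hS.Z i⟩) :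
          _ ≤ Tr.Frp.pairs ((Ideal.Quotient.mk (maximalIdeal V ^ N)).comp θ) S.π0) h
      exact ⟨p a b, congrFun (congrFun p1 a) b, congrFun (congrFun p2 a) b⟩
  refine ⟨θ, hC, hloc, fun f hf => krull (y := 0) fun N => ?_, fun g M hM =>
    Matrix.ext fun a b => krull fun N => Ideal.Quotient.eq.1 ?_⟩
  · rw [sub_zero]
    exact Ideal.Quotient.eq_zero_iff_mem.1 (Pres.univ ⟨N, hk N⟩ (hA N) hf)
  · exact (congrFun (congrFun (hM.ev _ _ _ ⟨N, hk N⟩ (hA N)) a) b).symm

/-- **points of the ring of traces lift** -/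
theorem lift_pt (hS : S.Ok) (h1 : ∀ g, S.rb g = 1) (hc : ∀ i, S.c0 i = 1) {σ : Type} [Fintype σ]
    {φ : MvPowerSeries σ O →+* PP O ι} (hC : ∀ o, φ (C o) = C o)
    (hl : ∀ u ∈ maximalIdeal (MvPowerSeries σ O), φ u ∈ maximalIdeal (PP O ι))
    (hX : ∀ s, ∃ M ∈ Wd hS, ∃ o, φ (X s) = M.trace - C o ∨ φ (X s) = M.det - C o)
    (ht : ∀ w, (wz hS w).trace ∈ φ.range) {Q : Ideal (PP O ι)} (hQ : Q ≤ maximalIdeal (PP O ι))
    {V : Type} [CommRing V] [IsDomain V] [IsDiscreteValuationRing V] [CharP V 2]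
    [IsAdicComplete (maximalIdeal V) V] [Finite (ResidueField V)] (θ : MvPowerSeries σ O →+* V)
    (hθ : ∀ u ∈ maximalIdeal (MvPowerSeries σ O), θ u ∈ maximalIdeal V)
    (hk : Q.comap φ ≤ RingHom.ker θ) (hd : ∀ i, ∃ u, φ u = (S.Z i).det ∧ θ u = 1) :
    ∃ (V' : Type) (_ : CommRing V') (_ : IsDomain V') (f : V →+* V') (θ' : PP O ι →+* V'),
      Function.Injective f ∧ θ'.comp φ = f.comp θ ∧
      ∀ i, (∀ a b, X (i, a, b) ∈ Q) → ∀ a b, θ' (X (i, a, b)) = 0 := by
  classical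
  haveI : Finite (ResidueField O) := by
    have : RingHom.ker S.red = maximalIdeal O := Ideal.ext fun c => hS.ker c
    show Finite (O ⧸ maximalIdeal O)
    rw [← this]
    exact Finite.of_injective _ S.red.kerLift_injective
  haveI : Base (MvPowerSeries σ O) :=
    { cpl := Cpl.isAdicCompleteV inferInstance, fin := Cpl.finite_residue }
  have back : ∀ u, φ u ∈ maximalIdeal (PP O ι) → u ∈ maximalIdeal (MvPowerSeries σ O) :=
    fun u hu => by_contra fun h => hu ((notMem_maximalIdeal.1 h).map φ)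
  choose r hr hr' using hd
  have ru : ∀ i, IsUnit (r i) := fun i => by
    by_contra h
    exact hθ _ h (by rw [hr']; exact isUnit_one)
  have w1 : ∀ w, (wz hS w).map S.π0 = 1 := fun w =>
    DFunLike.congr_fun (FreeGroup.ext_hom (pm S.π0 (wz hS)) 1 fun i => by
      rw [pm_apply, wz_of, hS.Z, mx, h1]; rfl) w
  let e := (Fintype.equivFin ι).symm
  obtain ⟨V', _, _, _, _, _, _, f, s, ρ, k1, k2, k3, k4, k5, k6, -, k7, -⟩ :=
    Lift.lift Lift.model0 (fun i => FreeGroup.of (e i)) (by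
      rw [show Set.range (fun i => FreeGroup.of (e i)) = Set.range FreeGroup.of from
        e.surjective.range_comp FreeGroup.of, FreeGroup.closure_range_of])
      ((Ideal.Quotient.mk Q).comp φ) (pm (Ideal.Quotient.mk Q) (wz hS)) θ
      (fun u hu => hk (Ideal.mem_comap.2 (Ideal.Quotient.eq_zero_iff_mem.1 hu))) (fun s => by
        obtain ⟨u, hu⟩ := ht (Word.wd (fun i => FreeGroup.of (e i)) s)
        refine ⟨u, by rw [RingHom.comp_apply, hu, pm_apply, AddMonoidHom.map_trace],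
          hθ _ (back _ (hS.max.1 ?_))⟩
        rw [hu, AddMonoidHom.map_trace, w1, Matrix.trace_fin_two]
        exact CharTwo.add_self_eq_zero (1 : F)) fun i => ⟨(ru (e i)).unit, by
          rw [RingHom.comp_apply, IsUnit.unit_spec, hr, pm_apply, wz_of, RingHom.map_det]; rfl,
          hr' _⟩
  have hm : ∀ g a b, ((ρ g : M2 V') - 1 : M2 V') a b ∈ maximalIdeal V' := fun g a b => by
    rw [k3.maximalIdeal_eq, Ideal.mem_span_singleton]; exact k6 g a b
  obtain ⟨θ', c1, c2⟩ := Conn.exists_ev (ι := Ix ι) (maximalIdeal V') ((f.comp θ).comp C)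
    (fun s => ((ρ (FreeGroup.of s.1) : M2 V') - 1 : M2 V') s.2.1 s.2.2) fun s => hm _ _ _
  have hfθ : ∀ u ∈ maximalIdeal (MvPowerSeries σ O), f.comp θ u ∈ maximalIdeal V' :=
    fun u hu => k2 _ (hθ u hu)
  have loc : ∀ x ∈ maximalIdeal (PP O ι), θ' x ∈ maximalIdeal V' :=
    Tor.loc_of (fun c h => by
      rw [c1]; exact hfθ _ ((Cpl.mem_max_iff _).2 (by rwa [constantCoeff_C])))
      fun s => by rw [c2]; exact hm _ _ _
  have hw : ∀ w, (wz hS w).map θ' = ρ w := fun w =>
    DFunLike.congr_fun (FreeGroup.ext_hom (pm θ' (wz hS)) ((Units.coeHom _).comp ρ) fun i => by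
      rw [pm_apply, wz_of]
      refine Matrix.ext fun a b => ?_
      show θ' (C (S.c0 i a b) + X (i, a, b)) = (ρ (FreeGroup.of i) : M2 V') a b
      rw [map_add, c1, c2, hc, Matrix.sub_apply, Matrix.one_apply, Matrix.one_apply,
        apply_ite ((f.comp θ).comp C), map_one, map_zero, add_sub_cancel]) w
  let R : FreeGroup ι →* (MvPowerSeries σ O)ˣ := FreeGroup.lift fun i => (ru i).unit
  have r1 : ∀ w, φ (R w) = (wz hS w).det := fun w =>
    DFunLike.congr_fun (FreeGroup.ext_hom (φ.toMonoidHom.comp ((Units.coeHom _).comp R))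
      (Matrix.detMonoidHom.comp (wz hS)) fun i => by
        show φ (R (FreeGroup.of i)) = (wz hS (FreeGroup.of i)).det
        rw [wz_of, FreeGroup.lift_apply_of, IsUnit.unit_spec, hr]) w
  have r2 : ∀ w, θ (R w) = 1 := fun w =>
    DFunLike.congr_fun (FreeGroup.ext_hom (θ.toMonoidHom.comp ((Units.coeHom _).comp R)) 1
      fun i => by
        show θ (R (FreeGroup.of i)) = 1
        rw [FreeGroup.lift_apply_of, IsUnit.unit_spec, hr']) w
  have hC' : ∀ o, θ'.comp φ (C o) = f.comp θ (C o) := fun o => by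
    rw [RingHom.comp_apply, hC, c1]; rfl
  refine ⟨V', inferInstance, inferInstance, f, θ', k1,
    Tor.hom_ext (fun u hu => loc _ (hl u hu)) hfθ hC' fun s => ?_, fun i hi a b => ?_⟩
  · obtain ⟨M, hM, o, h⟩ := hX s
    suffices θ'.comp φ (X s + C o) = f.comp θ (X s + C o) by
      rwa [map_add, map_add, hC', add_left_inj] at this
    refine agree hl (fun u hu => loc _ (hl u hu)) hfθ
      (fun x hx => by rw [RingHom.comp_apply, hx, map_zero])
      (fun x hx => by
        rw [RingHom.comp_apply, RingHom.mem_ker.1 (hk (by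
          rw [Ideal.mem_comap, hx]; exact Q.zero_mem)), map_zero]) fun k => ?_
    obtain ⟨w, hw'⟩ := hM k
    rcases h with h | h
    · obtain ⟨v, hv⟩ := ht w
      refine ⟨v, ?_, Ideal.Quotient.eq.1 ?_⟩
      · rw [RingHom.comp_apply, RingHom.comp_apply, k4 w v (by
          rw [RingHom.comp_apply, hv, pm_apply, AddMonoidHom.map_trace]), hv,
          AddMonoidHom.map_trace, hw]
      · rw [map_add, h, hC, sub_add_cancel, hv, AddMonoidHom.map_trace, AddMonoidHom.map_trace, hw']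
    · refine ⟨R w, ?_, Ideal.Quotient.eq.1 ?_⟩
      · rw [RingHom.comp_apply, RingHom.comp_apply, r1, r2, map_one, RingHom.map_det,
          RingHom.mapMatrix_apply, hw, k5]
      · rw [map_add, h, hC, sub_add_cancel, r1, RingHom.map_det, RingHom.map_det,
          RingHom.mapMatrix_apply, RingHom.mapMatrix_apply, hw']
  · rw [c2, k7 (FreeGroup.of i) 1 (by
      rw [map_one, pm_apply, wz_of]
      refine Matrix.ext fun a b => ?_
      show Ideal.Quotient.mk Q (C (S.c0 i a b) + X (i, a, b)) = _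
      rw [map_add, Ideal.Quotient.eq_zero_iff_mem.2 (hi a b), add_zero, hc, Matrix.one_apply,
        Matrix.one_apply, apply_ite C, apply_ite (Ideal.Quotient.mk Q), map_one, map_zero, map_one,
        map_zero]), map_one, Units.val_one, sub_self]
    rfl

end Vale.Agent.P022S.Geo
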