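import Vale.Agent.P022S.Geo.Phi
import Vale.Agent.P022S.Geo.Min
import Vale.Agent.P022S.Koch.Main
import Vale.Agent.P022S.Loc.Defs

/-!
# P022S: the framed ring of the minimal generators
-/

set_option linter.all false

noncomputable section

namespace Vale.Agent.P022S.Geo

open NumberField IsLocalRing MvPowerSeries
open Vale.Agent.P022
open Vale.Agent.P027M.S (Inert mx)
open Vale.Agent.P022D.Sel (M2)
open Vale.Agent.P022E.Loc (Pl)
open Vale.Agent.P022G.Pres (PP Ix Dt Jac Un Adm pm pm_apply pm_one go_jac)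
open Vale.Agent.P022S.Koch Vale.Agent.P022S.R Vale.Agent.P022S.Loc

variable {O F : Type} [CommRing O] [Field F]

/-- the data of the presentation -/
def d0 (S : Dat O F) (L : Pl O) {ι : Type} (gam : ι → GQ) : Dt O F ι where
  red := S.red
  rb := S.rb
  δ := Matrix.detMonoidHom.comp L.r
  T := S.T
  gam := gam
  c0 := fun _ => 1

variable [IsLocalRing O] {S : Dat O F} {L : Pl O}

theorem d0_δ {ι : Type} (gam : ι → GQ) (g : GQ) : (d0 S L gam).δ g = (L.r g).det := rfl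

theorem r_res (h : OkG L S) (h1 : ∀ g, S.rb g = 1) (g : GQ) : (L.r g).map S.red = 1 := by
  rw [h.lift, mx, h1, Units.val_one]

theorem d0_ok [CharP F 2] (h : OkG L S) (h1 : ∀ g, S.rb g = 1) (un : Un S.T L.r) {ι : Type}
    [DecidableEq ι] {gam : ι → GQ} {χ : ι → GQ → ZMod 2} (hχ : Db S.T gam χ) :
    (d0 S L gam).Ok where
  surj := S.surj
  ker := h.ker
  lift i := by
    show (1 : M2 O).map S.red = mx S.rb (gam i)
    rw [mx, h1, Units.val_one, Matrix.map_one _ (map_zero _) (map_one _)]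
  opn := by
    show IsOpen {g | S.rb g = 1}
    simp [h1]
  unr l _ P _ g _ := h1 g
  det g := by
    show S.red (L.r g).det = (mx S.rb g).det
    rw [RingHom.map_det, RingHom.mapMatrix_apply, h.lift]
  dop k := by
    let f : GQ →* O ⧸ maximalIdeal O ^ k :=
      Matrix.detMonoidHom.comp (pm (Ideal.Quotient.mk (maximalIdeal O ^ k)) L.r)
    have := P022D.R.opn_of_le (pm (Ideal.Quotient.mk (maximalIdeal O ^ k)) L.r) f (h.cont k)
      fun g hg => by
        show (pm (Ideal.Quotient.mk (maximalIdeal O ^ k)) L.r g).det = 1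
        rw [hg, Matrix.det_one]
    convert this using 2
    ext g
    show (L.r g).det - 1 ∈ maximalIdeal O ^ k ↔
      ((L.r g).map (Ideal.Quotient.mk (maximalIdeal O ^ k))).det = 1
    rw [← Ideal.Quotient.eq, map_one, RingHom.map_det, RingHom.mapMatrix_apply]
  dun l hl P hP g hg := by
    show (L.r g).det = 1
    rw [un l hl P hP g hg, Matrix.det_one]
  gen := hχ.h1 h1

variable [IsNoetherianRing O] [IsAdicComplete (maximalIdeal O) O] [Finite F] [CharP F 2]

/-- two universal matrices of the same element agree on the universal ring -/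
theorem lm_eq {ι : Type} [Fintype ι] {D : Dt O F ι} {hS : D.Ok} {g : GQ} {M N : M2 (PP O ι)}
    (a : Lm hS g M) (b : Lm hS g N) {q : Ideal (PP O ι)} (hq : Jac D ≤ q) :
    M.map (Ideal.Quotient.mk q) = N.map (Ideal.Quotient.mk q) := by
  have := baseP hS
  refine Matrix.ext fun x y => Ideal.Quotient.eq.2 (hq (P022D.PA.mem_of_sup _ _ fun k => ?_))
  obtain ⟨-, ρ, h⟩ := go_jac hS k
  have hk : ∃ j : ℕ, maximalIdeal (PP O ι) ^ j ≤
      RingHom.ker (Ideal.Quotient.mk (Jac D ⊔ maximalIdeal (PP O ι) ^ k)) :=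
    ⟨k, by rw [Ideal.mk_ker]; exact le_sup_right⟩
  exact Ideal.Quotient.eq.1
    (congrFun (congrFun ((a.ev _ _ ρ hk h).symm.trans (b.ev _ _ ρ hk h)) x) y)

/-- **the setup** -/
theorem setup (h : OkG L S) (hW : L.W = ∅) (h1 : ∀ g, S.rb g = 1) (un : Un S.T L.r)
    (h2 : (2 : O) ≠ 0) {n : ℕ} {γ : Fin n → GQ} (hG : Mod.Gen2 S.T ∅ γ) (wc : ∃ k, γ k = L.c)
    (wτ : ∀ l ∈ L.C, ∃ k, γ k = L.τ l) :
    ∃ (ι : Type) (_ : Fintype ι) (_ : DecidableEq ι) (e : ι → Fin n) (χ : ι → GQ → ZMod 2)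
      (i2 ic : ι) (iτ : L.C → ι) (hS : (d0 S L fun i => γ (e i)).Ok)
      (R : FreeGroup (Fin n) →* M2 (PP O ι))
      (φ : MvPowerSeries (Finset (Fin n) ⊕ Fin n) O →+* PP O ι),
      Db S.T (fun i => γ (e i)) χ ∧ Pc (d0 S L fun i => γ (e i)) L.C L.P L.τ L.φ ic iτ ∧
      Function.Injective (Sum.elim ![i2, ic] iτ) ∧ L.C.card + 2 ≤ Fintype.card ι ∧
      Ph hS γ L.r e R φ := by
  have hT : S.T = insert 0 (insert 2 L.C) := by rw [h.hT, hW, Finset.empty_union]
  have m : ∀ l ∈ L.C, l ∈ L.W ∪ L.C := fun l hl => Finset.mem_union_right _ hl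
  have ov : ∀ l ∈ L.C, P022E.GW.Ov l (L.P l) := fun l hl =>
    ⟨(h.pr l (m l hl)).1, (h.hP l (m l hl)).1, (h.hP l (m l hl)).2⟩
  have n2 : 2 ∉ L.C := fun k => (h.pr 2 (m 2 k)).2 rfl
  obtain ⟨ι, j1, j2, e, χ, i2, ic, iτ, a1, a2, a3, a4⟩ := ex_dbG (T := S.T) (C := L.C)
    (by simp [hT]) (fun l hl => by simp [hT, hl]) n2 L.P L.τ ov
    (fun l hl => gn_tm (ov l hl) (h.tm l (m l hl))) h.cj hG (fun _ _ k => k) wc wτ
  have hS := d0_ok h h1 un a1
  obtain ⟨R, φ, H⟩ := exists_ph hS h1 γ L.r (r_res h h1) e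
    (fun i j k => a1.inj (congrArg γ k)) fun _ => rfl
  refine ⟨ι, j1, j2, e, χ, i2, ic, iτ, hS, R, φ, a1, ⟨hT, ov, n2, fun l hl => h.tm l (m l hl),
    (a2 ▸ h.cj : P022.IsConj (γ (e ic))), ?_, fun k => h2 ?_, a3⟩, a4, ?_, H⟩
  · show (L.r (γ (e ic))).det = -1
    rw [a2, h.odd]
  · have k1 : L.c = 1 := a2.symm.trans k
    have k2 := h.odd
    rw [k1, map_one, Matrix.det_one] at k2
    linear_combination k2
  · have := Fintype.card_le_of_injective _ a4
    rw [Fintype.card_sum, Fintype.card_fin, Fintype.card_coe] at this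
    omega

end Vale.Agent.P022S.Geo
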