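import Vale.Agent.P022S.Defs
import Vale.Agent.P022S.Geo.Set
import Vale.Agent.P022S.Mod.Wd
import Vale.Agent.P022G.Tr.CrvPtH87

/-!
# P022S: the framed point of a curve
-/

set_option linter.all false

noncomputable section

namespace Vale.Agent.P022S.Geo.Up

open NumberField IsLocalRing MvPowerSeries
open Vale.Agent.P022
open Vale.Agent.P027M.S (Inert mx)
open Vale.Agent.P022D.Sel (M2)
open Vale.Agent.P022D.Core (PS)
open Vale.Agent.P022E.Loc (Pl)
open Vale.Agent.P022G.Pres (Ix Dt Jac Un)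
open Vale.Agent.P022G.Tr.H87 (mh j_max j_zero c_rd)
open Vale.Agent.P022S.Koch Vale.Agent.P022S.R Vale.Agent.P022S.Loc

section words
variable {Γ Γ' : Type} [Group Γ] [Group Γ'] {n : ℕ}

theorem map_wd (f : Γ →* Γ') (γ : Fin n → Γ) (s : Finset (Fin n)) :
    f (P022G.Word.wd γ s) = P022G.Word.wd (fun i => f (γ i)) s := by
  rw [P022G.Word.wd, P022G.Word.wd, map_list_prod, List.map_map]; rfl

theorem lift_wd (γ : Fin n → Γ) (s : Finset (Fin n)) :
    FreeGroup.lift γ (P022G.Word.wd FreeGroup.of s) = P022G.Word.wd γ s := by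
  rw [map_wd]; simp only [FreeGroup.lift_apply_of]

theorem wm_wd {B : Type} [CommRing B] (ρ : Γ →* M2 B) (γ : Fin n → Γ) (s : Finset (Fin n)) :
    wm (fun i => ρ (γ i)) s = ρ (P022G.Word.wd γ s) := by
  rw [P022G.Word.wd, wm, map_list_prod, List.map_map]; rfl

theorem wd_update (γ : Fin n → Γ) (i : Fin n) (s : Finset (Fin n)) :
    P022G.Word.wd (Function.update γ i 1) s = P022G.Word.wd γ (s.erase i) := by
  have e : (s.erase i).sort (· ≤ ·) = (s.sort (· ≤ ·)).filter fun a => a ≠ i := by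
    refine List.Perm.eq_of_pairwise (le := (· ≤ ·)) (fun a b _ _ => le_antisymm)
      (Finset.pairwise_sort _ _) ((Finset.pairwise_sort _ _).filter _) ?_
    rw [List.perm_ext_iff_of_nodup (Finset.sort_nodup _ _) ((Finset.sort_nodup _ _).filter _)]
    intro a
    simp [and_comm]
  rw [P022G.Word.wd, P022G.Word.wd, e, Mod.prod_filter (fun a => a ≠ i) _ (fun a ha => by
    rw [not_not.1 ha, Function.update_self])]
  congr 1
  refine List.map_congr_left fun a ha => Function.update_of_ne ?_ _ _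
  simpa using (List.mem_filter.1 ha).2

/-- the equations `tauP` on all words -/
theorem tau_word {B : Type} [CommRing B] (ρ : Γ →* M2 B) (γ : Fin n → Γ) (i : Fin n)
    (hd : (ρ (γ i)).det = 1)
    (h : ∀ s, (ρ (P022G.Word.wd γ (insert i s))).trace = (ρ (P022G.Word.wd γ (s.erase i))).trace)
    (w : FreeGroup (Fin n)) :
    (ρ (FreeGroup.lift γ w * γ i)).trace = (ρ (FreeGroup.lift γ w)).trace := by
  have k : ∀ w, (ρ (FreeGroup.lift γ w)).trace =
      (ρ (FreeGroup.lift (Function.update γ i 1) w)).trace := fun w =>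
    P022G.Word.agree FreeGroup.of (Lift.tf_rep (ρ.comp (FreeGroup.lift γ)))
      (Lift.tf_rep (ρ.comp (FreeGroup.lift (Function.update γ i 1)))) (fun s => by
        show (ρ (FreeGroup.lift γ _)).trace = (ρ (FreeGroup.lift _ _)).trace
        rw [lift_wd, lift_wd, wd_update]
        by_cases hs : i ∈ s
        · rw [← h, Finset.insert_eq_of_mem hs]
        · rw [Finset.erase_eq_of_notMem hs]) (fun a => Units.ext (by
        rw [Lift.dt_val, Lift.dt_val]
        show (ρ (FreeGroup.lift γ _)).det = (ρ (FreeGroup.lift _ _)).det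
        rw [FreeGroup.lift_apply_of, FreeGroup.lift_apply_of]
        by_cases e : a = i
        · rw [e, hd, Function.update_self, map_one, Matrix.det_one]
        · rw [Function.update_of_ne e])) (by rw [FreeGroup.closure_range_of]; trivial)
  have := k (w * FreeGroup.of i)
  rw [map_mul, map_mul (FreeGroup.lift _), FreeGroup.lift_apply_of, FreeGroup.lift_apply_of,
    Function.update_self, mul_one, ← k] at this
  exact this

end words

variable {O F : Type} [CommRing O] [IsDomain O] [IsDiscreteValuationRing O] [Field F]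
  {S : Dat O F} {L : Pl O} {κ : Type} {gk : κ → GQ} {n : ℕ} {G : Gs S L gk n}
  {V : Type} [CommRing V] [IsDomain V] [IsDiscreteValuationRing V] [CharP V 2]
  {t : V} {j : O →+* V} {ρ : GQ →* GL (Fin 2) V} {θ : PS O (Sy n) →+* V}

theorem j_one (h2 : (2 : O) ≠ 0) (hL : OkG L S) (h1 : ∀ g, S.rb g = 1) (g : GQ) (a b : Fin 2) :
    j (L.r g a b) = (1 : M2 V) a b := by
  have e : S.red (L.r g a b - (1 : M2 O) a b) = 0 := by
    rw [map_sub, show S.red (L.r g a b) = (1 : M2 F) a b from
      congrFun (congrFun (r_res hL h1 g) a) b, Matrix.one_apply, Matrix.one_apply, apply_ite S.red,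
      map_one, map_zero, sub_self]
  have := j_max h2 j ((hL.ker _).1 e)
  rwa [map_sub, sub_eq_zero, Matrix.one_apply, apply_ite j, map_one, map_zero,
    ← Matrix.one_apply] at this

theorem j_det (h2 : (2 : O) ≠ 0) (hL : OkG L S) (h1 : ∀ g, S.rb g = 1) (g : GQ) :
    j (L.r g).det = 1 := by
  rw [RingHom.map_det, RingHom.mapMatrix_apply,
    show (L.r g).map j = 1 from Matrix.ext (j_one h2 hL h1 g), Matrix.det_one]

theorem c_opn (ht : Irreducible t) (hc : G.Crv t j ρ θ) (N : ℕ) :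
    IsOpen {g | (mh ρ g).map (Ideal.Quotient.mk (maximalIdeal V ^ N)) = 1} := by
  rw [(IsDiscreteValuationRing.irreducible_iff_uniformizer t).1 ht, Ideal.span_singleton_pow]
  have := (hc.lv N).opn
  simpa only [c_rd] using this

theorem c_unr (ht : Irreducible t) (hc : G.Crv t j ρ θ) : Un S.T (mh ρ) := by
  intro l hl P hP g hg
  refine Matrix.ext fun a b => krull fun N => ?_
  rw [(IsDiscreteValuationRing.irreducible_iff_uniformizer t).1 ht, Ideal.span_singleton_pow,
    ← Ideal.Quotient.eq]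
  have h := congrFun (congrFun ((c_rd _ g).1 ((hc.lv N).unr l hl P hP g hg)) a) b
  rw [Matrix.map_apply] at h
  rw [h, Matrix.one_apply, Matrix.one_apply, apply_ite (Ideal.Quotient.mk _), map_one, map_zero]

theorem th_t (hc : G.Crv t j ρ θ) (s : Finset (Fin n)) :
    θ (tS G.rc id s) = (mh ρ (P022G.Word.wd G.γ s)).trace := by
  rw [tS, map_add, hc.hm.c, hc.hm.x, ← wm_wd]
  exact add_sub_cancel _ _

theorem th_d (hc : G.Crv t j ρ θ) (i : Fin n) : θ (dS G.rc id i) = 1 := by
  rw [dS, map_add, hc.hm.c, hc.hm.x, ← hc.det (G.γ i)]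
  exact add_sub_cancel _ _

variable [IsAdicComplete (maximalIdeal O) O] [Finite F] [CharP F 2]
  [IsAdicComplete (maximalIdeal V) V] [Finite (ResidueField V)]

/-- **the framed point of a curve** -/
theorem up (h2 : (2 : O) ≠ 0) (hL : OkG L S) (h1 : ∀ g, S.rb g = 1) {ι : Type} [Fintype ι]
    {e : ι → Fin n} {hS : (d0 S L fun i => G.γ (e i)).Ok}
    (hγ : ∀ x ∈ Qc S.T, (∀ i, x (G.γ (e i)) = 0) → x = 0)
    {R : FreeGroup (Fin n) →* M2 (P022G.Pres.PP O ι)} {φ : PS O (Sy n) →+* P022G.Pres.PP O ι}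
    (H : Ph hS G.γ L.r e R φ) (ht : Irreducible t) (hc : G.Crv t j ρ θ) :
    ∃ θ' : P022G.Pres.PP O ι →+* V, θ'.comp φ = θ ∧ (∀ o, θ' (C o) = j o) ∧
      Jac (d0 S L fun i => G.γ (e i)) ≤ RingHom.ker θ' ∧
      (∀ g M, Lm hS g M → M.map θ' = ρ g) ∧
      ∀ i, tauP G.rc id (e i) ⊆ RingHom.ker θ → ∀ a b, θ' (X (i, a, b)) = 0 := by
  have hm := (IsDiscreteValuationRing.irreducible_iff_uniformizer t).1 ht
  obtain ⟨θ', c1, c2, c3, c4⟩ := pt hS h1 (by
      show 2 ∈ S.T
      simp [hL.hT]) (fun _ => rfl) hγ j (mh ρ)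
    (fun o ho => by rw [j_max h2 j ho]; exact zero_mem _) (fun g a b => by
      rw [hm, Ideal.mem_span_singleton, Matrix.sub_apply, ← j_one (j := j) h2 hL h1 g]
      exact hc.res g a b) (fun g => by rw [d0_δ, j_det h2 hL h1]; exact hc.det g)
    (c_opn ht hc) (c_unr ht hc)
  have hx : ∀ s, θ'.comp φ (X s) = θ (X s) := by
    rintro (s | i)
    · rw [RingHom.comp_apply, H.t, map_sub, c1, AddMonoidHom.map_trace, c4 _ _ (H.lm _), lift_wd,
        hc.hm.x, ← wm_wd, ← wm_wd]
      rfl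
    · rw [RingHom.comp_apply, H.d, map_sub, c1, RingHom.map_det, RingHom.mapMatrix_apply,
        c4 _ _ (H.lm _), FreeGroup.lift_apply_of, hc.hm.x]
      rfl
  refine ⟨θ', P022D.NR.ev_ext (maximalIdeal V) (fun o => ?_) hx (fun s => c2 _ (H.loc _ ?_)), c1, c3,
    c4, fun i hi a b => ?_⟩
  · rw [RingHom.comp_apply, H.c, c1, hc.hm.c]
  · exact (P022D.CA.Cpl.mem_max_iff _).2 (by simp)
  · have k := tau_word (mh ρ) G.γ (e i) (hc.det _) fun s => by
      rw [← th_t hc, ← th_t hc, ← sub_eq_zero, ← map_sub]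
      exact hi (Or.inr ⟨s, rfl⟩)
    have k1 : ρ (G.γ (e i)) = 1 := hc.fth _ fun z => krull fun N => by
      obtain ⟨M, hM⟩ := ex_lm hS h1 z
      obtain ⟨w, hw⟩ := hM.wd N
      have e1 : (wz hS w).map θ' = mh ρ (FreeGroup.lift G.γ (FreeGroup.map e w)) := by
        rw [H.wz, c4 _ _ (H.lm _)]
      have e2 : ∀ a b, mh ρ z a b - mh ρ (FreeGroup.lift G.γ (FreeGroup.map e w)) a b ∈
          maximalIdeal V ^ N := fun a b => by
        rw [← e1, ← c4 _ _ hM, Matrix.map_apply, Matrix.map_apply, ← map_sub]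
        exact P022G.Tor.map_pow_mem c2 N (Ideal.Quotient.eq.1 (congrFun (congrFun hw a) b))
      have e3 := k (FreeGroup.map e w)
      have e4 : ∀ Y : M2 V, (mh ρ z * Y).trace -
          (mh ρ (FreeGroup.lift G.γ (FreeGroup.map e w)) * Y).trace ∈ maximalIdeal V ^ N := by
        intro Y
        rw [← Matrix.trace_sub, ← sub_mul, Matrix.trace]
        refine Ideal.sum_mem _ fun a _ => ?_
        rw [Matrix.diag_apply, Matrix.mul_apply]
        exact Ideal.sum_mem _ fun b _ => Ideal.mul_mem_right _ _ (e2 a b)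
      have e5 := sub_mem (e4 (mh ρ (G.γ (e i)))) (e4 1)
      rw [← map_mul, ← map_mul, e3, mul_one, mul_one, sub_sub_sub_cancel_right] at e5
      exact e5
    have k2 := congrFun (congrFun (c4 _ _ (lm_gen hS i)) a) b
    change θ' (C ((1 : M2 O) a b) + X (i, a, b)) = (ρ (G.γ (e i)) : M2 V) a b at k2
    rw [k1, map_add, c1, Units.val_one, Matrix.one_apply, Matrix.one_apply, apply_ite j, map_one,
      map_zero] at k2
    exact add_eq_left.1 k2

end Vale.Agent.P022S.Geo.Up
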