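import Vale.Agent.P022S.Geo.Down3
import Vale.Agent.P022S.Koch.Locl
import Vale.Agent.P022G.Cat
import Vale.Agent.P022G.Tor2
import Vale.Agent.P022G.Conn.Dim
import Vale.Agent.P022D.Rl.Ch0

/-!
# P022S: the component in characteristic zero through the point
-/

set_option linter.all false

noncomputable section

namespace Vale.Agent.P022S.Geo.Zd

open IsLocalRing MvPowerSeries
open Vale.Agent.P022
open Vale.Agent.P027M.S (mx)
open Vale.Agent.P022D.Sel (M2)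
open Vale.Agent.P022G.Pres
open Vale.Agent.P022S.Koch (Uv uv_gen)

variable {O F ι : Type} [CommRing O] [IsDomain O] [IsDiscreteValuationRing O] [Field F]
  [IsAdicComplete (maximalIdeal O) O] [Fintype ι] {S : Dt O F ι}

theorem zero_of {x : O} (h : ∀ N : ℕ, x ∈ maximalIdeal O ^ N) : x = 0 := by
  rw [← Ideal.mem_bot, ← Ideal.iInf_pow_eq_bot_of_isLocalRing (maximalIdeal O)
    (maximalIdeal.isMaximal O).ne_top, Ideal.mem_iInf]
  exact h

/-- **the point** -/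
theorem pt (hS : S.Ok) (r : GQ →* M2 O) (hδ : ∀ g, S.δ g = (r g).det)
    (hr : ∀ g a b, S.red (r g a b) = mx S.rb g a b)
    (cont : ∀ N : ℕ, IsOpen {g | (r g).map (Ideal.Quotient.mk (maximalIdeal O ^ N)) = 1})
    (un : Un S.T r) : ∃ θ : PP O ι →+* O, (∀ o, θ (C o) = o) ∧
      (∀ g M, Uv S g M → M.map θ = r g) ∧ Jac S ≤ RingHom.ker θ := by
  have hx : ∀ s : Ix ι, r (S.gam s.1) s.2.1 s.2.2 - S.c0 s.1 s.2.1 s.2.2 ∈ maximalIdeal O :=
    fun s => by
      have e : S.red (S.c0 s.1 s.2.1 s.2.2) = mx S.rb (S.gam s.1) s.2.1 s.2.2 :=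
        congrFun (congrFun (hS.lift s.1) s.2.1) s.2.2
      rw [← hS.ker, map_sub, hr, e, sub_self]
  obtain ⟨θ, h1, h2⟩ := P022G.Conn.exists_ev (maximalIdeal O) (RingHom.id O) _ hx
  have hl : ∀ f ∈ maximalIdeal (PP O ι), θ f ∈ maximalIdeal O :=
    P022G.Tor.loc_of (fun c hc => by rw [h1]; exact hc) fun s => by rw [h2]; exact hx s
  have hk : ∀ N : ℕ, maximalIdeal (PP O ι) ^ N ≤
      RingHom.ker ((Ideal.Quotient.mk (maximalIdeal O ^ N)).comp θ) := fun N x hx => by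
    rw [RingHom.mem_ker, RingHom.comp_apply, Ideal.Quotient.eq_zero_iff_mem]
    refine Ideal.pow_right_mono (Ideal.map_le_iff_le_comap.2 hl) N ?_
    rw [← Ideal.map_pow]
    exact Ideal.mem_map_of_mem _ hx
  have ha : ∀ N : ℕ, Adm S ((Ideal.Quotient.mk (maximalIdeal O ^ N)).comp θ)
      (pm (Ideal.Quotient.mk (maximalIdeal O ^ N)) r) := fun N =>
    { gen := fun i => by
        ext a b
        show Ideal.Quotient.mk _ (r (S.gam i) a b) =
          Ideal.Quotient.mk _ (θ (C (S.c0 i a b) + X (i, a, b)))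
        rw [map_add, h1, h2, RingHom.id_apply, add_sub_cancel]
      det := fun g => by
        rw [pm_apply, ← RingHom.mapMatrix_apply, ← RingHom.map_det, RingHom.comp_apply, h1, hδ]
        rfl
      opn := cont N
      unr := fun l hl P hP g hg => pm_one _ _ (un l hl P hP g hg)
      res := fun g a b => ⟨C (r g a b), by rw [RingHom.comp_apply, h1]; rfl, by
        rw [← hr]; simp [Dt.π0]⟩ }
  refine ⟨θ, h1, fun g M hM => ?_, fun x hx => zero_of fun N => ?_⟩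
  · ext a b
    refine sub_eq_zero.1 (zero_of fun N => Ideal.Quotient.eq.1 ?_)
    exact (congrFun (congrFun (hM _ _ _ ⟨N, hk N⟩ (ha N)) a) b).symm
  · exact Ideal.Quotient.eq_zero_iff_mem.1 (univ ⟨N, hk N⟩ (ha N) hx)

/-- **the component**: `E` lists all equations -/
theorem zed {θ : PP O ι →+* O} {κ : Type} [Fintype κ] (E : κ → PP O ι) (hE : ∀ k, θ (E k) = 0)
    (cnt : Fintype.card κ + 5 ≤ 4 * Fintype.card ι) {A : Type} [CommRing A] [IsNoetherianRing A]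
    (φ : A →+* PP O ι) (hC : ∀ o, ∃ u, φ u = C o) (M N : M2 (PP O ι))
    (irr : (M.map θ * N.map θ - N.map θ * M.map θ).det ≠ 0) (W : Submonoid (M2 (PP O ι)))
    (hM : M ∈ W) (hN : N ∈ W) (hZ : ∀ i, S.Z i ∈ W)
    (hW : ∀ q : Ideal (PP O ι), (∀ k, E k ∈ q) → ∀ x ∈ W,
      (∃ u, x.trace - φ u ∈ q) ∧ ∃ u, x.det - φ u ∈ q) :
    ∃ q : Ideal (PP O ι), q.IsPrime ∧ (∀ k, E k ∈ q) ∧ q ≤ RingHom.ker θ ∧
      ((3 : ℕ) : WithBot ℕ∞) ≤ ringKrullDim (A ⧸ q.comap φ) := by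
  obtain ⟨ϖ, hϖ⟩ := IsDiscreteValuationRing.exists_irreducible O
  obtain ⟨hreg, hdim⟩ := P022D.Rl.Ch0.reg (σ := Ix ι) hϖ.maximalIdeal_eq
  obtain ⟨q, hq, -, h1, h2, h3⟩ := P022G.Cat.cat E (Q := ⊥) (p := RingHom.ker θ) Ideal.bot_prime
    (RingHom.ker_isPrime θ) bot_le hE (k := 3 + 3) (by
      rw [ringKrullDim_eq_of_ringEquiv (RingEquiv.quotientBot _), hdim]
      simp only [Fintype.card_prod, Fintype.card_fin]
      exact_mod_cast (by omega : 3 + 3 + Fintype.card κ ≤ Fintype.card ι * (2 * 2) + 1))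
  have k := hW q h1
  refine ⟨q, hq, h1, h2, down3 φ hq hC M N (fun h => irr ?_) S.Z
    (fun ⟨i, a, b⟩ => ⟨i, a, b, S.c0 i a b, (add_sub_cancel_left _ _).symm⟩)
    {x | ∃ u, x - φ u ∈ q} (fun _ h => h) (k M hM).1 (k M hM).2 (k N hN).1 (k N hN).2
    (k _ (W.mul_mem hM hN)).1 (fun i => ⟨(k _ (hZ i)).1, (k _ (W.mul_mem (hZ i) hM)).1,
      (k _ (W.mul_mem (hZ i) hN)).1, (k _ (W.mul_mem (hZ i) (W.mul_mem hM hN))).1⟩) 3 h3⟩
  have := RingHom.mem_ker.1 (h2 h)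
  rwa [RingHom.map_det, map_sub, map_mul, map_mul] at this

end Vale.Agent.P022S.Geo.Zd
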